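import Mathlib

set_option linter.all false

section

namespace Vale.Agent.P060

open Finset

/-- A lopsided Lovasz local lemma in counting form. -/
theorem local_lemma {Ω ι : Type*} [Fintype Ω] [Nonempty Ω] [DecidableEq ι]
    (E : ι → Ω → Prop) (Γ : ι → ι → Prop) (p : ι → ℝ) (hp : ∀ i, 0 ≤ p i)
    (T₀ : Finset ι) (hrefl : ∀ i, Γ i i)
    (hlop : ∀ i ∈ T₀, ∀ T ⊆ T₀, (∀ j ∈ T, ¬ Γ i j) →
      (Nat.card {ω // E i ω ∧ ∀ j ∈ T, ¬ E j ω} : ℝ) ≤
        p i * (Nat.card {ω // ∀ j ∈ T, ¬ E j ω} : ℝ))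
    (hsum : ∀ i ∈ T₀, ∀ T ⊆ T₀, (∀ j ∈ T, Γ i j) → ∑ j ∈ T, p j ≤ 1 / 4) :
    ∃ ω, ∀ j ∈ T₀, ¬ E j ω := by
  classical
  -- notation
  set good : Finset ι → Finset Ω := fun T => univ.filter (fun ω => ∀ j ∈ T, ¬ E j ω) with hgood
  have hlop' : ∀ i ∈ T₀, ∀ T ⊆ T₀, (∀ j ∈ T, ¬ Γ i j) →
      (((good T).filter (fun ω => E i ω)).card : ℝ) ≤ p i * ((good T).card : ℝ) := by
    intro i hi T hT hTi
    have h := hlop i hi T hT hTi
    have e1 : Nat.card {ω // E i ω ∧ ∀ j ∈ T, ¬ E j ω} =
        ((good T).filter (fun ω => E i ω)).card := by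
      rw [Nat.card_eq_fintype_card, Fintype.card_subtype]
      congr 1
      ext ω
      simp only [hgood, mem_filter, mem_univ, true_and]
      tauto
    have e2 : Nat.card {ω // ∀ j ∈ T, ¬ E j ω} = (good T).card := by
      rw [Nat.card_eq_fintype_card, Fintype.card_subtype]
    rw [e1, e2] at h
    exact h
  have key : ∀ n : ℕ, ∀ T ⊆ T₀, T.card = n → ∀ i ∈ T₀,
      (((good T).filter (fun ω => E i ω)).card : ℝ) ≤ 2 * p i * ((good T).card : ℝ) := by
    intro n
    induction n using Nat.strong_induction_on with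
    | _ n ih =>
      intro T hT hTn i hi
      set T1 := T.filter (fun j => Γ i j) with hT1
      set T2 := T.filter (fun j => ¬ Γ i j) with hT2
      have hT2T : T2 ⊆ T := filter_subset _ _
      have hT1T : T1 ⊆ T := filter_subset _ _
      have h2 : (((good T2).filter (fun ω => E i ω)).card : ℝ) ≤ p i * ((good T2).card : ℝ) :=
        hlop' i hi T2 (hT2T.trans hT) (fun j hj => (mem_filter.1 hj).2)
      have hgg : good T ⊆ good T2 := by
        intro ω hω
        simp only [hgood, mem_filter, mem_univ, true_and] at hω ⊢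
        exact fun j hj => hω j (hT2T hj)
      by_cases hemp : T1 = ∅
      · have hTT : T2 = T := by
          apply Finset.ext
          intro j
          constructor
          · exact fun h => hT2T h
          · intro h
            refine mem_filter.2 ⟨h, fun hG => ?_⟩
            have : j ∈ T1 := mem_filter.2 ⟨h, hG⟩
            rw [hemp] at this
            exact absurd this (notMem_empty _)
        rw [hTT] at h2
        have h3 : 0 ≤ p i * ((good T).card : ℝ) := mul_nonneg (hp i) (Nat.cast_nonneg _)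
        linarith
      · have hlt : T2.card < n := by
          rw [← hTn]
          apply card_lt_card
          refine ⟨hT2T, fun h => hemp ?_⟩
          apply eq_empty_of_forall_notMem
          intro j hj
          exact (mem_filter.1 (h (hT1T hj))).2 (mem_filter.1 hj).2
        have hIH : ∀ j ∈ T1, (((good T2).filter (fun ω => E j ω)).card : ℝ) ≤
            2 * p j * ((good T2).card : ℝ) := fun j hj =>
          ih T2.card hlt T2 (hT2T.trans hT) rfl j (hT (hT1T hj))
        have hcover : good T2 ⊆ good T ∪ T1.biUnion (fun j => (good T2).filter (fun ω => E j ω)) := by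
          intro ω hω
          by_cases hω' : ω ∈ good T
          · exact mem_union_left _ hω'
          · apply mem_union_right
            simp only [hgood, mem_filter, mem_univ, true_and, not_forall, not_not] at hω'
            obtain ⟨j, hjT, hj⟩ := hω'
            refine mem_biUnion.2 ⟨j, ?_, mem_filter.2 ⟨hω, hj⟩⟩
            refine mem_filter.2 ⟨hjT, ?_⟩
            by_contra hG
            have hj2 : j ∈ T2 := mem_filter.2 ⟨hjT, hG⟩
            simp only [hgood, mem_filter, mem_univ, true_and] at hω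
            exact hω j hj2 hj
        have hcard : ((good T2).card : ℝ) ≤ (good T).card +
            ∑ j ∈ T1, (((good T2).filter (fun ω => E j ω)).card : ℝ) := by
          have h1 := (card_le_card hcover).trans (card_union_le _ _)
          have h2' := h1.trans (Nat.add_le_add_left (card_biUnion_le
            (s := T1) (t := fun j => (good T2).filter (fun ω => E j ω))) _)
          exact_mod_cast h2'
        have hs : ∑ j ∈ T1, (((good T2).filter (fun ω => E j ω)).card : ℝ) ≤
            2 * (∑ j ∈ T1, p j) * ((good T2).card : ℝ) := by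
          calc _ ≤ ∑ j ∈ T1, 2 * p j * ((good T2).card : ℝ) := sum_le_sum hIH
            _ = _ := by rw [mul_sum, sum_mul]
        have hq : ∑ j ∈ T1, p j ≤ 1 / 4 := hsum i hi T1 (hT1T.trans hT)
          (fun j hj => (mem_filter.1 hj).2)
        have hhalf : ((good T2).card : ℝ) ≤ 2 * (good T).card := by
          have h0 : (0 : ℝ) ≤ (good T2).card := Nat.cast_nonneg _
          nlinarith
        have hmono : (((good T).filter (fun ω => E i ω)).card : ℝ) ≤
            ((good T2).filter (fun ω => E i ω)).card := by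
          exact_mod_cast card_le_card (filter_subset_filter _ hgg)
        have hpi := hp i
        nlinarith
  have hpos : ∀ T ⊆ T₀, 0 < ((good T).card : ℝ) := by
    intro T
    induction T using Finset.induction_on with
    | empty =>
      intro _
      have : good ∅ = univ := by
        apply Finset.ext; intro ω; simp [hgood]
      rw [this]
      have : 0 < (univ : Finset Ω).card := card_pos.2 univ_nonempty
      exact_mod_cast this
    | insert i T hiT ih =>
      intro hT
      have hiT0 : i ∈ T₀ := hT (mem_insert_self i T)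
      have hTT0 : T ⊆ T₀ := (subset_insert i T).trans hT
      have h1 := ih hTT0
      have h2 := key T.card T hTT0 rfl i hiT0
      have hpi : p i ≤ 1 / 4 := by
        have := hsum i hiT0 {i} (by simpa using hiT0) (by simp [hrefl])
        simpa using this
      have hsplit : (good T).card = (good (insert i T)).card +
          ((good T).filter (fun ω => E i ω)).card := by
        have h3 : good (insert i T) = (good T).filter (fun ω => ¬ E i ω) := by
          apply Finset.ext; intro ω
          simp only [hgood, mem_filter, mem_univ, true_and, mem_insert]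
          constructor
          · intro h
            exact ⟨fun j hj => h j (Or.inr hj), h i (Or.inl rfl)⟩
          · rintro ⟨h, h'⟩ j (rfl | hj)
            · exact h'
            · exact h j hj
        rw [h3, add_comm]
        exact (card_filter_add_card_filter_not _).symm
      have hsplit' : ((good T).card : ℝ) = (good (insert i T)).card +
          (((good T).filter (fun ω => E i ω)).card : ℝ) := by exact_mod_cast hsplit
      nlinarith
  have hfin := hpos T₀ (Subset.refl _)
  have hfin' : 0 < (good T₀).card := by exact_mod_cast hfin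
  obtain ⟨ω, hω⟩ := card_pos.1 hfin'
  refine ⟨ω, ?_⟩
  simpa only [hgood, mem_filter, mem_univ, true_and] using hω

end Vale.Agent.P060
end

section

namespace Vale.Agent.P060

open Finset

variable {W : Type*} {m : ℕ}

/-- The vertex paired with `x` by the pairing `e`. -/
def partner (e : Fin m × Bool ≃ W) (x : W) : W := e ((e.symm x).1, !(e.symm x).2)

theorem partner_partner (e : Fin m × Bool ≃ W) (x : W) : partner e (partner e x) = x := by
  simp [partner]

theorem partner_ne (e : Fin m × Bool ≃ W) (x : W) : partner e x ≠ x := by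
  intro h
  have h2 := congrArg e.symm h
  simp only [partner, Equiv.symm_apply_apply] at h2
  have h3 := congrArg Prod.snd h2
  simp at h3

theorem partner_trans (e : Fin m × Bool ≃ W) (τ : Equiv.Perm W) (x : W) :
    partner (e.trans τ) x = τ (partner e (τ.symm x)) := by
  simp [partner]

theorem partner_apply (e : Fin m × Bool ≃ W) (i : Fin m) (b : Bool) :
    partner e (e (i, b)) = e (i, !b) := by
  simp [partner]

variable [Fintype W] [DecidableEq W]

/-- Switching bound. -/
theorem switch_bound (P : (Fin m × Bool ≃ W) → Prop) (a b : W) (Z : Finset W)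
    (haZ : a ∉ Z)
    (hP : ∀ z ∈ Z, ∀ e, P e → partner e a = b → P (e.trans (Equiv.swap b z))) :
    Nat.card {e : Fin m × Bool ≃ W // partner e a = b ∧ P e} * Z.card ≤
      Nat.card {e : Fin m × Bool ≃ W // P e} := by
  classical
  by_cases hab : a = b
  · have : IsEmpty {e : Fin m × Bool ≃ W // partner e a = b ∧ P e} := by
      refine ⟨fun x => ?_⟩
      apply partner_ne x.1 a
      rw [x.2.1, hab]
    simp
  · let f : {e : Fin m × Bool ≃ W // partner e a = b ∧ P e} × Z →
      {e : Fin m × Bool ≃ W // P e} :=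
      fun x => ⟨x.1.1.trans (Equiv.swap b x.2.1), hP x.2.1 x.2.2 x.1.1 x.1.2.2 x.1.2.1⟩
    have hf : Function.Injective f := by
      rintro ⟨⟨e, he1, he2⟩, ⟨z, hz⟩⟩ ⟨⟨e', he1', he2'⟩, ⟨z', hz'⟩⟩ h
      simp only [f, Subtype.mk.injEq] at h
      have haz : a ≠ z := fun h => haZ (h ▸ hz)
      have haz' : a ≠ z' := fun h => haZ (h ▸ hz')
      have h1 : partner (e.trans (Equiv.swap b z)) a = z := by
        rw [partner_trans, Equiv.symm_swap, Equiv.swap_apply_of_ne_of_ne hab haz, he1,
          Equiv.swap_apply_left]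
      have h2 : partner (e'.trans (Equiv.swap b z')) a = z' := by
        rw [partner_trans, Equiv.symm_swap, Equiv.swap_apply_of_ne_of_ne hab haz', he1',
          Equiv.swap_apply_left]
      have hzz : z = z' := by rw [← h1, ← h2, h]
      subst hzz
      have hee : e = e' := by
        have := congrArg (fun g => g.trans (Equiv.swap b z)) h
        simpa [Equiv.trans_assoc] using this
      subst hee
      rfl
    have := Nat.card_le_card_of_injective f hf
    rwa [Nat.card_prod, Nat.card_eq_fintype_card (α := Z), Fintype.card_coe] at this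

/-- Event of a pair or of two pairs. -/
def Ev (i : (W × W) ⊕ (W × W × W × W)) (e : Fin m × Bool ≃ W) : Prop :=
  Sum.elim (fun x : W × W => partner e x.1 = x.2)
    (fun x : W × W × W × W => partner e x.1 = x.2.1 ∧ partner e x.2.2.1 = x.2.2.2) i

/-- Support of an event. -/
def supp (i : (W × W) ⊕ (W × W × W × W)) : Finset W :=
  Sum.elim (fun x : W × W => {x.1, x.2})
    (fun x : W × W × W × W => {x.1, x.2.1, x.2.2.1, x.2.2.2}) i

/-- If the event holds after the switch, it held before. -/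
theorem pair_switch (e : Fin m × Bool ≃ W) {a b z c d : W} (hab : partner e a = b)
    (hca : c ≠ a) (hcb : c ≠ b) (hda : d ≠ a) (hdb : d ≠ b) (hza : z ≠ a)
    (h : partner (e.trans (Equiv.swap b z)) c = d) : partner e c = d := by
  rw [partner_trans, Equiv.symm_swap] at h
  have hba : partner e b = a := by rw [← hab, partner_partner]
  by_cases hcz : c = z
  · exfalso
    rw [hcz, Equiv.swap_apply_right, hba] at h
    rw [Equiv.swap_apply_of_ne_of_ne (by rw [← hab]; exact (partner_ne e a).symm) hza.symm] at h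
    exact hda h.symm
  · rw [Equiv.swap_apply_of_ne_of_ne hcb hcz] at h
    by_cases hdz : d = z
    · exfalso
      have h2 : partner e c = b := by
        have := congrArg (Equiv.swap b z) h
        rw [Equiv.swap_apply_self, hdz, Equiv.swap_apply_right] at this
        exact this
      apply hca
      rw [← partner_partner e c, h2, hba]
    · have := congrArg (Equiv.swap b z) h
      rw [Equiv.swap_apply_self, Equiv.swap_apply_of_ne_of_ne hdb hdz] at this
      exact this

theorem ev_switch (e : Fin m × Bool ≃ W) {a b z : W} (hab : partner e a = b) (hza : z ≠ a)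
    (j : (W × W) ⊕ (W × W × W × W)) (hja : a ∉ supp j) (hjb : b ∉ supp j)
    (h : Ev j (e.trans (Equiv.swap b z))) : Ev j e := by
  rcases j with ⟨c, d⟩ | ⟨c, d, c', d'⟩
  · simp only [supp, Sum.elim_inl, Sum.elim_inr, mem_insert, mem_singleton, not_or] at hja hjb
    exact pair_switch e hab (Ne.symm hja.1) (Ne.symm hjb.1) (Ne.symm hja.2) (Ne.symm hjb.2) hza h
  · simp only [supp, Sum.elim_inl, Sum.elim_inr, mem_insert, mem_singleton, not_or] at hja hjb
    exact ⟨pair_switch e hab (Ne.symm hja.1) (Ne.symm hjb.1) (Ne.symm hja.2.1)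
        (Ne.symm hjb.2.1) hza h.1,
      pair_switch e hab (Ne.symm hja.2.2.1) (Ne.symm hjb.2.2.1) (Ne.symm hja.2.2.2)
        (Ne.symm hjb.2.2.2) hza h.2⟩

/-- One pair: probability at most `1/(N-1)`, conditionally. -/
theorem ev_pair_bound (hW : Fintype.card W = 2 * m) (a b : W)
    (T : Finset ((W × W) ⊕ (W × W × W × W)))
    (hT : ∀ j ∈ T, Disjoint ({a, b} : Finset W) (supp j)) :
    Nat.card {e : Fin m × Bool ≃ W // partner e a = b ∧ ∀ j ∈ T, ¬ Ev j e} * (2 * m - 1) ≤
      Nat.card {e : Fin m × Bool ≃ W // ∀ j ∈ T, ¬ Ev j e} := by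
  have h := switch_bound (fun e : Fin m × Bool ≃ W => ∀ j ∈ T, ¬ Ev j e) a b (univ.erase a)
    (by simp) (by
      intro z hz e he hab j hj hE
      have hd := hT j hj
      rw [disjoint_left] at hd
      exact he j hj (ev_switch e hab (mem_erase.1 hz).1 j (hd (by simp)) (hd (by simp)) hE))
  rwa [card_erase_of_mem (mem_univ a), card_univ, hW] at h

/-- Two pairs: probability at most `1/((N-1)(N-3))`, conditionally. -/
theorem ev_two_bound (hW : Fintype.card W = 2 * m) (a b c d : W)
    (hac : a ≠ c) (had : a ≠ d) (hbc : b ≠ c) (hbd : b ≠ d) (hcd : c ≠ d)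
    (T : Finset ((W × W) ⊕ (W × W × W × W)))
    (hT : ∀ j ∈ T, Disjoint ({a, b, c, d} : Finset W) (supp j)) :
    Nat.card {e : Fin m × Bool ≃ W // (partner e a = b ∧ partner e c = d) ∧
        ∀ j ∈ T, ¬ Ev j e} * ((2 * m - 3) * (2 * m - 1)) ≤
      Nat.card {e : Fin m × Bool ≃ W // ∀ j ∈ T, ¬ Ev j e} := by
  have h1 := switch_bound (fun e : Fin m × Bool ≃ W => partner e c = d ∧ ∀ j ∈ T, ¬ Ev j e) a b
    (((univ.erase a).erase c).erase d)
    (by simp) (by
      intro z hz e he hab
      have hz1 : z ≠ d := (mem_erase.1 hz).1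
      have hz2 : z ≠ c := (mem_erase.1 (mem_erase.1 hz).2).1
      have hz3 : z ≠ a := (mem_erase.1 (mem_erase.1 (mem_erase.1 hz).2).2).1
      constructor
      · rw [partner_trans, Equiv.symm_swap, Equiv.swap_apply_of_ne_of_ne hbc.symm hz2.symm, he.1,
          Equiv.swap_apply_of_ne_of_ne hbd.symm hz1.symm]
      · intro j hj hE
        have hd := hT j hj
        rw [disjoint_left] at hd
        exact he.2 j hj (ev_switch e hab hz3 j (hd (by simp)) (hd (by simp)) hE))
  have h2 := ev_pair_bound hW c d T (by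
    intro j hj
    have hd := hT j hj
    rw [disjoint_left] at hd ⊢
    intro x hx
    apply hd
    simp only [mem_insert, mem_singleton] at hx ⊢
    tauto)
  rw [card_erase_of_mem (by simp [had.symm, hcd.symm]),
    card_erase_of_mem (by simp [hac.symm]), card_erase_of_mem (mem_univ a), card_univ, hW] at h1
  have h3 : Nat.card {e : Fin m × Bool ≃ W // (partner e a = b ∧ partner e c = d) ∧
        ∀ j ∈ T, ¬ Ev j e} = Nat.card {e : Fin m × Bool ≃ W // partner e a = b ∧
          partner e c = d ∧ ∀ j ∈ T, ¬ Ev j e} := by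
    congr 1
    simp only [and_assoc]
  rw [h3, ← mul_assoc]
  have h4 : 2 * m - 1 - 1 - 1 = 2 * m - 3 := by omega
  rw [h4] at h1
  calc _ ≤ _ := Nat.mul_le_mul_right _ h1
    _ ≤ _ := h2

end Vale.Agent.P060
end

section

namespace Vale.Agent.P060

open Finset

variable {W : Type*} {m : ℕ} [Fintype W] [DecidableEq W]

theorem sum_biUnion_le_sum_of_nonneg' {α β : Type*} [DecidableEq α] [DecidableEq β]
    (s : Finset α) (t : α → Finset β) (f : β → ℝ) (hf : ∀ b, 0 ≤ f b) :
    ∑ b ∈ s.biUnion t, f b ≤ ∑ a ∈ s, ∑ b ∈ t a, f b := by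
  induction s using Finset.induction_on with
  | empty => simp
  | insert a s ha ih =>
    rw [biUnion_insert, sum_insert ha]
    have h := sum_union_inter (s₁ := t a) (s₂ := s.biUnion t) (f := f)
    have h2 : 0 ≤ ∑ b ∈ t a ∩ s.biUnion t, f b := sum_nonneg (fun b _ => hf b)
    linarith

/-- Existence of a pairing which avoids all bad pairs and all bad pairs of pairs. -/
theorem exists_avoiding (hm : 2 ≤ m) (hW : Fintype.card W = 2 * m)
    (E2 : Finset (W × W)) (E4 : Finset (W × W × W × W))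
    (hE4 : ∀ x ∈ E4, x.1 ≠ x.2.2.1 ∧ x.1 ≠ x.2.2.2 ∧ x.2.1 ≠ x.2.2.1 ∧ x.2.1 ≠ x.2.2.2 ∧
      x.2.2.1 ≠ x.2.2.2)
    (hcount : ∀ v : W, 16 * ((E2.filter (fun x => v = x.1 ∨ v = x.2)).card * (2 * m - 3) +
      (E4.filter (fun x => v = x.1 ∨ v = x.2.1 ∨ v = x.2.2.1 ∨ v = x.2.2.2)).card) ≤
      (2 * m - 3) * (2 * m - 1)) :
    ∃ e : Fin m × Bool ≃ W, (∀ x ∈ E2, partner e x.1 ≠ x.2) ∧
      ∀ x ∈ E4, ¬ (partner e x.1 = x.2.1 ∧ partner e x.2.2.1 = x.2.2.2) := by
  classical
  have hne : Nonempty (Fin m × Bool ≃ W) := by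
    rw [← Fintype.card_eq]
    simp [hW, mul_comm]
  obtain ⟨k, rfl⟩ : ∃ k, m = k + 2 := ⟨m - 2, by omega⟩
  have e1 : 2 * (k + 2) - 3 = 2 * k + 1 := by omega
  have e2 : 2 * (k + 2) - 1 = 2 * k + 3 := by omega
  have hA : (0 : ℝ) < 2 * k + 1 := by positivity
  have hB : (0 : ℝ) < 2 * k + 3 := by positivity
  set p : (W × W) ⊕ (W × W × W × W) → ℝ := fun i =>
    Sum.elim (fun _ => 1 / ((2 : ℝ) * k + 3)) (fun _ => 1 / (((2 : ℝ) * k + 1) * (2 * k + 3))) i
    with hp
  have hp0 : ∀ i, 0 ≤ p i := by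
    rintro (x | x) <;> simp only [hp, Sum.elim_inl, Sum.elim_inr] <;> positivity
  have hS : ∀ v : W, ∑ j ∈ (E2.disjSum E4).filter (fun j => v ∈ supp j), p j ≤ 1 / 16 := by
    intro v
    have h1 : ∑ j ∈ (E2.disjSum E4).filter (fun j => v ∈ supp j), p j =
        (E2.filter (fun x => v = x.1 ∨ v = x.2)).card * (1 / ((2 : ℝ) * k + 3)) +
        (E4.filter (fun x => v = x.1 ∨ v = x.2.1 ∨ v = x.2.2.1 ∨ v = x.2.2.2)).card *
          (1 / (((2 : ℝ) * k + 1) * (2 * k + 3))) := by
      rw [sum_filter, sum_disjSum]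
      congr 1
      · rw [← nsmul_eq_mul, ← sum_const, sum_filter]
        apply sum_congr rfl
        rintro ⟨a, b⟩ _
        simp only [supp, mem_insert, mem_singleton, hp, Sum.elim_inl]
      · rw [← nsmul_eq_mul, ← sum_const, sum_filter]
        apply sum_congr rfl
        rintro ⟨a, b, c, d⟩ _
        simp only [supp, mem_insert, mem_singleton, hp, Sum.elim_inr]
    rw [h1]
    have h2 := hcount v
    rw [e1, e2] at h2
    have h3 : 16 * (((E2.filter (fun x => v = x.1 ∨ v = x.2)).card : ℝ) * (2 * k + 1) +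
        ((E4.filter (fun x => v = x.1 ∨ v = x.2.1 ∨ v = x.2.2.1 ∨ v = x.2.2.2)).card : ℝ)) ≤
        (2 * k + 1) * (2 * k + 3) := by exact_mod_cast h2
    have h4 : ∀ x y : ℝ, x * (1 / (2 * (k : ℝ) + 3)) + y * (1 / ((2 * (k : ℝ) + 1) * (2 * k + 3)))
        = (x * (2 * k + 1) + y) / ((2 * (k : ℝ) + 1) * (2 * k + 3)) := by
      intro x y
      field_simp
    rw [h4, div_le_div_iff₀ (by positivity) (by norm_num)]
    linarith
  obtain ⟨e, he⟩ := local_lemma (Ω := Fin (k + 2) × Bool ≃ W) (fun i e => Ev i e)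
    (fun i j => ¬ Disjoint (supp i) (supp j)) p hp0 (E2.disjSum E4)
    (by
      intro i h
      rw [disjoint_self] at h
      rcases i with ⟨a, b⟩ | ⟨a, b, c, d⟩ <;> simp [supp] at h)
    (by
      intro i hi T hT hdis
      have hdis' : ∀ j ∈ T, Disjoint (supp i) (supp j) := fun j hj => by
        have := hdis j hj
        rwa [not_not] at this
      rcases i with ⟨a, b⟩ | ⟨a, b, c, d⟩
      · have h := ev_pair_bound hW a b T hdis'
        rw [e2] at h
        have h' : (Nat.card {e : Fin (k + 2) × Bool ≃ W // partner e a = b ∧ ∀ j ∈ T, ¬ Ev j e} : ℝ)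
            * (2 * k + 3) ≤ Nat.card {e : Fin (k + 2) × Bool ≃ W // ∀ j ∈ T, ¬ Ev j e} := by
          exact_mod_cast h
        simp only [hp, Sum.elim_inl, Ev]
        rw [div_mul_eq_mul_div, one_mul, le_div_iff₀ hB]
        exact h'
      · have hx := hE4 (a, b, c, d) (by simpa using hi)
        have h := ev_two_bound hW a b c d hx.1 hx.2.1 hx.2.2.1 hx.2.2.2.1 hx.2.2.2.2 T hdis'
        rw [e1, e2] at h
        have h' : (Nat.card {e : Fin (k + 2) × Bool ≃ W // (partner e a = b ∧ partner e c = d) ∧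
            ∀ j ∈ T, ¬ Ev j e} : ℝ) * ((2 * k + 1) * (2 * k + 3)) ≤
            Nat.card {e : Fin (k + 2) × Bool ≃ W // ∀ j ∈ T, ¬ Ev j e} := by
          exact_mod_cast h
        simp only [hp, Sum.elim_inr, Ev]
        rw [div_mul_eq_mul_div, one_mul, le_div_iff₀ (mul_pos hA hB)]
        exact h')
    (by
      intro i hi T hT hΓ
      have hsub : T ⊆ (supp i).biUnion
          (fun v => (E2.disjSum E4).filter (fun j => v ∈ supp j)) := by
        intro j hj
        have h := hΓ j hj
        rw [not_disjoint_iff] at h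
        obtain ⟨v, hv1, hv2⟩ := h
        exact mem_biUnion.2 ⟨v, hv1, mem_filter.2 ⟨hT hj, hv2⟩⟩
      have hc : (supp i).card ≤ 4 := by
        rcases i with ⟨a, b⟩ | ⟨a, b, c, d⟩
        · exact (card_le_two).trans (by norm_num)
        · exact card_le_four
      have q1 := sum_le_sum_of_subset_of_nonneg hsub (fun j _ _ => hp0 j)
      have q2 : ∑ j ∈ (supp i).biUnion (fun v => (E2.disjSum E4).filter (fun j => v ∈ supp j)),
          p j ≤ ∑ v ∈ supp i, ∑ j ∈ (E2.disjSum E4).filter (fun j => v ∈ supp j), p j :=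
        sum_biUnion_le_sum_of_nonneg' _ _ p hp0
      have q3 : ∑ v ∈ supp i, ∑ j ∈ (E2.disjSum E4).filter (fun j => v ∈ supp j), p j ≤
          ∑ v ∈ supp i, (1 / 16 : ℝ) := sum_le_sum (fun v _ => hS v)
      have q4 : ∑ v ∈ supp i, (1 / 16 : ℝ) = (supp i).card * (1 / 16 : ℝ) := by
        rw [sum_const, nsmul_eq_mul]
      have q5 : ((supp i).card : ℝ) ≤ 4 := by exact_mod_cast hc
      linarith)
  refine ⟨e, ?_, ?_⟩
  · intro x hx h
    exact he (Sum.inl x) (by simpa using hx) h
  · intro x hx h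
    exact he (Sum.inr x) (by simpa using hx) h

end Vale.Agent.P060
end

section

namespace Vale.Agent.P060

open Finset

variable {W : Type*} {m : ℕ} [Fintype W] [DecidableEq W]

section
open Classical

/-- Common neighbours. -/
noncomputable def common (H : SimpleGraph W) (a b : W) : Finset W :=
  univ.filter (fun c => H.Adj a c ∧ H.Adj b c)

theorem common_comm (H : SimpleGraph W) (a b : W) : common H a b = common H b a := by
  unfold common
  apply filter_congr
  intro c _
  tauto

theorem sum_common_le (H : SimpleGraph W) (D : ℕ)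
    (hdeg : ∀ w, (univ.filter (fun c => H.Adj w c)).card ≤ D) (v : W) :
    ∑ b ∈ univ.erase v, (common H v b).card ≤ D * (D - 1) := by
  have h1 : ∑ b ∈ univ.erase v, (common H v b).card =
      ∑ c ∈ univ.filter (fun c => H.Adj v c),
        ((univ.erase v).filter (fun b => H.Adj b c)).card := by
    have e1 : ∀ b, (common H v b).card =
        ∑ c ∈ univ.filter (fun c => H.Adj v c), if H.Adj b c then 1 else 0 := by
      intro b
      rw [common, ← sum_filter, filter_filter, card_eq_sum_ones]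
    simp_rw [e1]
    rw [sum_comm]
    apply sum_congr rfl
    intro c _
    rw [card_eq_sum_ones, sum_filter]
  rw [h1]
  have h2 : ∀ c ∈ univ.filter (fun c => H.Adj v c),
      ((univ.erase v).filter (fun b => H.Adj b c)).card ≤ D - 1 := by
    intro c hc
    have hvc : H.Adj v c := (mem_filter.1 hc).2
    have h3 : (univ.erase v).filter (fun b => H.Adj b c) =
        (univ.filter (fun b => H.Adj c b)).erase v := by
      ext b
      simp only [mem_filter, mem_erase, mem_univ, and_true, true_and, H.adj_comm b c]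
    rw [h3, card_erase_of_mem (by simpa using hvc.symm)]
    exact Nat.sub_le_sub_right (hdeg c) 1
  calc _ ≤ ∑ c ∈ univ.filter (fun c => H.Adj v c), (D - 1) := sum_le_sum h2
    _ = (univ.filter (fun c => H.Adj v c)).card * (D - 1) := by rw [sum_const, smul_eq_mul]
    _ ≤ D * (D - 1) := Nat.mul_le_mul_right _ (hdeg v)

/-- Main pairing theorem, raw numerical form. -/
theorem exists_pairing_raw (hm : 2 ≤ m) (hW : Fintype.card W = 2 * m) (H : SimpleGraph W)
    (bad : W → W → Prop) (hsymm : ∀ a b, bad a b → bad b a) (D B K : ℕ)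
    (hdeg : ∀ w, (univ.filter (fun c => H.Adj w c)).card ≤ D)
    (hbad : ∀ w, (univ.filter (fun c => bad w c)).card ≤ B)
    (hnum : 16 * ((D + B + D * (D - 1) / (K + 1)) * (2 * m - 3) +
      4 * ((K - 1) * (D * (D - 1)))) ≤ (2 * m - 3) * (2 * m - 1)) :
    ∃ e : Fin m × Bool ≃ W, (∀ x, ¬ H.Adj x (partner e x)) ∧ (∀ x, ¬ bad x (partner e x)) ∧
      ∀ x y, y ≠ x → y ≠ partner e x → ¬ (H.Adj x y ∧ H.Adj x (partner e y) ∧
        H.Adj (partner e x) y ∧ H.Adj (partner e x) (partner e y)) := by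
  set f : W → ℕ := fun x => (Fintype.equivFin W x).val with hf
  have hfinj : ∀ x y, f x = f y → x = y := by
    intro x y h
    exact (Fintype.equivFin W).injective (Fin.ext h)
  set bp : W → W → Prop := fun a b => H.Adj a b ∨ bad a b ∨ K < (common H a b).card with hbp
  have bpsymm : ∀ a b, bp a b → bp b a := by
    rintro a b (h | h | h)
    · exact Or.inl h.symm
    · exact Or.inr (Or.inl (hsymm _ _ h))
    · exact Or.inr (Or.inr (by rwa [common_comm]))
  set E2 : Finset (W × W) := univ.filter (fun x => f x.1 < f x.2 ∧ bp x.1 x.2) with hE2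
  set E4 : Finset (W × W × W × W) := univ.filter (fun x =>
    (H.Adj x.1 x.2.2.1 ∧ H.Adj x.1 x.2.2.2 ∧ H.Adj x.2.1 x.2.2.1 ∧ H.Adj x.2.1 x.2.2.2) ∧
    (x.1 ≠ x.2.1 ∧ x.2.2.1 ≠ x.2.2.2) ∧ (common H x.1 x.2.1).card ≤ K ∧
    (common H x.2.2.1 x.2.2.2).card ≤ K) with hE4
  have hcount : ∀ v : W, 16 * ((E2.filter (fun x => v = x.1 ∨ v = x.2)).card * (2 * m - 3) +
      (E4.filter (fun x => v = x.1 ∨ v = x.2.1 ∨ v = x.2.2.1 ∨ v = x.2.2.2)).card) ≤
      (2 * m - 3) * (2 * m - 1) := by
    intro v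
    have hsc := sum_common_le H D hdeg v
    -- high codegree partners
    have hhigh : ((univ.erase v).filter (fun b => K < (common H v b).card)).card ≤
        D * (D - 1) / (K + 1) := by
      rw [Nat.le_div_iff_mul_le (Nat.succ_pos K)]
      calc _ = ∑ b ∈ (univ.erase v).filter (fun b => K < (common H v b).card), (K + 1) := by
            rw [sum_const, smul_eq_mul]
        _ ≤ ∑ b ∈ (univ.erase v).filter (fun b => K < (common H v b).card),
            (common H v b).card := by
            apply sum_le_sum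
            intro b hb
            exact (mem_filter.1 hb).2
        _ ≤ ∑ b ∈ univ.erase v, (common H v b).card :=
            sum_le_sum_of_subset (filter_subset _ _)
        _ ≤ _ := hsc
    have h2 : (E2.filter (fun x => v = x.1 ∨ v = x.2)).card ≤
        D + B + D * (D - 1) / (K + 1) := by
      have hsub : E2.filter (fun x => v = x.1 ∨ v = x.2) ⊆
          ((univ.filter (fun c => H.Adj v c) ∪ univ.filter (fun c => bad v c)) ∪
            (univ.erase v).filter (fun b => K < (common H v b).card)).image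
            (fun w => if f v < f w then (v, w) else (w, v)) := by
        rintro ⟨a, b⟩ hx
        simp only [hE2, mem_filter, mem_univ, true_and] at hx
        obtain ⟨⟨hlt, hb⟩, hv⟩ := hx
        have hbp' : ∀ w, w ≠ v → bp v w → w ∈ ((univ.filter (fun c => H.Adj v c) ∪
            univ.filter (fun c => bad v c)) ∪
            (univ.erase v).filter (fun b => K < (common H v b).card)) := by
          intro w hw hb
          simp only [mem_union, mem_filter, mem_univ, true_and, mem_erase, and_true]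
          rcases hb with h | h | h
          · exact Or.inl (Or.inl h)
          · exact Or.inl (Or.inr h)
          · exact Or.inr ⟨hw, h⟩
        rcases hv with rfl | rfl
        · refine mem_image.2 ⟨b, hbp' b ?_ hb, by rw [if_pos hlt]⟩
          rintro rfl
          exact lt_irrefl _ hlt
        · refine mem_image.2 ⟨a, hbp' a ?_ (bpsymm _ _ hb), by rw [if_neg (by omega)]⟩
          rintro rfl
          exact lt_irrefl _ hlt
      calc _ ≤ _ := card_le_card hsub
        _ ≤ _ := card_image_le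
        _ ≤ _ := card_union_le _ _
        _ ≤ (D + B) + D * (D - 1) / (K + 1) := by
            apply Nat.add_le_add _ hhigh
            exact (card_union_le _ _).trans (Nat.add_le_add (hdeg v) (hbad v))
    -- conflicts
    set Q : Finset (W × W × W) := ((univ.erase v).filter
      (fun b => (common H v b).card ≤ K)).biUnion
        (fun b => (common H v b).offDiag.image (fun cd => (b, cd.1, cd.2))) with hQ
    have hQcard : Q.card ≤ (K - 1) * (D * (D - 1)) := by
      calc Q.card ≤ ∑ b ∈ (univ.erase v).filter (fun b => (common H v b).card ≤ K),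
            ((common H v b).offDiag.image (fun cd => (b, cd.1, cd.2))).card := card_biUnion_le
        _ ≤ ∑ b ∈ (univ.erase v).filter (fun b => (common H v b).card ≤ K),
            (K - 1) * (common H v b).card := by
            apply sum_le_sum
            intro b hb
            have hbK := (mem_filter.1 hb).2
            refine card_image_le.trans ?_
            rw [offDiag_card, ← Nat.sub_one_mul]
            exact Nat.mul_le_mul_right _ (Nat.sub_le_sub_right hbK 1)
        _ ≤ ∑ b ∈ univ.erase v, (K - 1) * (common H v b).card :=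
            sum_le_sum_of_subset (filter_subset _ _)
        _ = (K - 1) * ∑ b ∈ univ.erase v, (common H v b).card := by rw [mul_sum]
        _ ≤ _ := Nat.mul_le_mul_left _ hsc
    have hmemQ : ∀ b c d, H.Adj v c → H.Adj v d → H.Adj b c → H.Adj b d → b ≠ v → c ≠ d →
        (common H v b).card ≤ K → (b, c, d) ∈ Q := by
      intro b c d h1 h2 h3 h4 h5 h6 h7
      refine mem_biUnion.2 ⟨b, mem_filter.2 ⟨mem_erase.2 ⟨h5, mem_univ _⟩, h7⟩, ?_⟩
      refine mem_image.2 ⟨(c, d), ?_, rfl⟩
      rw [mem_offDiag]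
      simp only [common, mem_filter, mem_univ, true_and]
      exact ⟨⟨h1, h3⟩, ⟨h2, h4⟩, h6⟩
    have h4 : (E4.filter (fun x => v = x.1 ∨ v = x.2.1 ∨ v = x.2.2.1 ∨ v = x.2.2.2)).card ≤
        4 * ((K - 1) * (D * (D - 1))) := by
      have hsub : E4.filter (fun x => v = x.1 ∨ v = x.2.1 ∨ v = x.2.2.1 ∨ v = x.2.2.2) ⊆
          (Q.image (fun y => (v, y.1, y.2.1, y.2.2)) ∪ Q.image (fun y => (y.1, v, y.2.1, y.2.2))) ∪
          (Q.image (fun y => (y.2.1, y.2.2, v, y.1)) ∪
            Q.image (fun y => (y.2.1, y.2.2, y.1, v))) := by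
        rintro ⟨a, b, c, d⟩ hx
        simp only [hE4, mem_filter, mem_univ, true_and] at hx
        obtain ⟨⟨⟨hac, had, hbc, hbd⟩, ⟨hab, hcd⟩, hk1, hk2⟩, hv⟩ := hx
        simp only [mem_union]
        rcases hv with rfl | rfl | rfl | rfl
        · exact Or.inl (Or.inl (mem_image.2 ⟨(b, c, d),
            hmemQ b c d hac had hbc hbd hab.symm hcd hk1, rfl⟩))
        · exact Or.inl (Or.inr (mem_image.2 ⟨(a, c, d),
            hmemQ a c d hbc hbd hac had hab hcd (by rwa [common_comm]), rfl⟩))
        · exact Or.inr (Or.inl (mem_image.2 ⟨(d, a, b),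
            hmemQ d a b hac.symm hbc.symm had.symm hbd.symm hcd.symm hab hk2, rfl⟩))
        · exact Or.inr (Or.inr (mem_image.2 ⟨(c, a, b),
            hmemQ c a b had.symm hbd.symm hac.symm hbc.symm hcd hab (by rwa [common_comm]), rfl⟩))
      calc _ ≤ _ := card_le_card hsub
        _ ≤ _ := card_union_le _ _
        _ ≤ (Q.card + Q.card) + (Q.card + Q.card) :=
            Nat.add_le_add ((card_union_le _ _).trans (Nat.add_le_add card_image_le card_image_le))
              ((card_union_le _ _).trans (Nat.add_le_add card_image_le card_image_le))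
        _ ≤ _ := by omega
    refine le_trans ?_ hnum
    apply Nat.mul_le_mul_left
    exact Nat.add_le_add (Nat.mul_le_mul_right _ h2) h4
  obtain ⟨e, he2, he4⟩ := exists_avoiding hm hW E2 E4 (by
    rintro ⟨a, b, c, d⟩ hx
    simp only [hE4, mem_filter, mem_univ, true_and] at hx
    obtain ⟨⟨hac, had, hbc, hbd⟩, ⟨hab, hcd⟩, -, -⟩ := hx
    exact ⟨hac.ne, had.ne, hbc.ne, hbd.ne, hcd⟩) (by
      intro v
      convert hcount v)
  have hbpe : ∀ x, ¬ bp x (partner e x) := by
    intro x hb
    rcases lt_trichotomy (f x) (f (partner e x)) with h | h | h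
    · exact he2 (x, partner e x) (by
        simp only [hE2, mem_filter, mem_univ, true_and]; exact ⟨h, hb⟩) rfl
    · exact partner_ne e x (hfinj _ _ h).symm
    · exact he2 (partner e x, x) (by
        simp only [hE2, mem_filter, mem_univ, true_and]; exact ⟨h, bpsymm _ _ hb⟩)
        (partner_partner e x)
  refine ⟨e, fun x h => hbpe x (Or.inl h), fun x h => hbpe x (Or.inr (Or.inl h)), ?_⟩
  rintro x y hyx hyp ⟨h1, h2, h3, h4⟩
  have hk1 : (common H x (partner e x)).card ≤ K := by
    by_contra hcon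
    exact hbpe x (Or.inr (Or.inr (not_le.1 hcon)))
  have hk2 : (common H y (partner e y)).card ≤ K := by
    by_contra hcon
    exact hbpe y (Or.inr (Or.inr (not_le.1 hcon)))
  refine he4 (x, partner e x, y, partner e y) ?_ ⟨rfl, rfl⟩
  simp only [hE4, mem_filter, mem_univ, true_and]
  exact ⟨⟨h1, h2, h3, h4⟩, ⟨(partner_ne e x).symm, (partner_ne e y).symm⟩, hk1, hk2⟩

end

end Vale.Agent.P060
end

section

namespace Vale.Agent.P060

open Finset

theorem numeric_aux (m D : ℕ) (hD : 1 ≤ D) (hN : (16 * D) ^ 4 ≤ (2 * m) ^ 3) :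
    ∃ K : ℕ, 16 * ((D + D + D * (D - 1) / (K + 1)) * (2 * m - 3) +
      4 * ((K - 1) * (D * (D - 1)))) ≤ (2 * m - 3) * (2 * m - 1) := by
  have hbase : 41 ≤ 2 * m := by
    by_contra hcon
    push Not at hcon
    have h1 : (16 * 1) ^ 4 ≤ (16 * D) ^ 4 := Nat.pow_le_pow_left (by omega) 4
    have h2 : (2 * m) ^ 3 ≤ 40 ^ 3 := Nat.pow_le_pow_left (by omega) 3
    norm_num at h1 h2
    omega
  obtain ⟨k, rfl⟩ : ∃ k, m = k + 2 := ⟨m - 2, by omega⟩
  have e1 : 2 * (k + 2) - 3 = 2 * k + 1 := by omega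
  have e2 : 2 * (k + 2) - 1 = 2 * k + 3 := by omega
  rw [e1, e2]
  rcases Nat.lt_or_ge D 2 with hD2 | hD2
  · have hD1 : D = 1 := by omega
    subst hD1
    refine ⟨0, ?_⟩
    simp only [Nat.sub_self, Nat.mul_zero, Nat.zero_div, Nat.add_zero]
    have h3 : 32 ≤ 2 * k + 3 := by omega
    calc 16 * ((1 + 1) * (2 * k + 1)) = (2 * k + 1) * 32 := by ring
      _ ≤ (2 * k + 1) * (2 * k + 3) := Nat.mul_le_mul_left _ h3
  · have hbase2 : 102 ≤ 2 * (k + 2) := by
      by_contra hcon
      push Not at hcon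
      have h1 : (16 * 2) ^ 4 ≤ (16 * D) ^ 4 := Nat.pow_le_pow_left (by omega) 4
      have h2 : (2 * (k + 2)) ^ 3 ≤ 101 ^ 3 := Nat.pow_le_pow_left (by omega) 3
      norm_num at h1 h2
      omega
    set N : ℝ := 2 * (k + 2) with hNdef
    have hN102 : (102 : ℝ) ≤ N := by
      have : ((102 : ℕ) : ℝ) ≤ ((2 * (k + 2) : ℕ) : ℝ) := by exact_mod_cast hbase2
      push_cast at this
      simpa [hNdef] using this
    set x : ℝ := 16 * D with hx
    have hx0 : 0 ≤ x := by positivity
    have hxN : x ^ 4 ≤ N ^ 3 := by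
      have : (((16 * D) ^ 4 : ℕ) : ℝ) ≤ (((2 * (k + 2)) ^ 3 : ℕ) : ℝ) := by exact_mod_cast hN
      push_cast at this
      simpa [hx, hNdef] using this
    have hN0 : 0 < N := by linarith
    set r : ℝ := Real.sqrt N with hr
    have hr2 : r ^ 2 = N := Real.sq_sqrt hN0.le
    have hr0 : 0 < r := Real.sqrt_pos.2 hN0
    -- x ≤ 0.315 N
    have hxlin : 1000 * x ≤ 315 * N := by
      by_contra hcon
      push Not at hcon
      have h1 : (315 * N) ^ 4 < (1000 * x) ^ 4 := pow_lt_pow_left₀ hcon (by positivity) (by norm_num)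
      have h2 : (315 * N) ^ 4 = 9845600625 * (N ^ 3 * N) := by ring
      have h3 : N ^ 3 * 102 ≤ N ^ 3 * N := by
        apply mul_le_mul_of_nonneg_left hN102 (by positivity)
      have h4 : (1000 * x) ^ 4 = 1000000000000 * x ^ 4 := by ring
      have h5 : 0 < N ^ 3 := by positivity
      rw [h2, h4] at h1
      nlinarith
    -- x^2 ≤ r^3
    have hx2 : x ^ 2 ≤ r ^ 3 := by
      by_contra hcon
      push Not at hcon
      have h1 : (r ^ 3) ^ 2 < (x ^ 2) ^ 2 := pow_lt_pow_left₀ hcon (by positivity) (by norm_num)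
      have h2 : (r ^ 3) ^ 2 = N ^ 3 := by rw [← hr2]; ring
      have h3 : (x ^ 2) ^ 2 = x ^ 4 := by ring
      rw [h2, h3] at h1
      linarith
    have hD2r : 256 * (D : ℝ) ^ 2 ≤ r ^ 3 := by
      have : x ^ 2 = 256 * (D : ℝ) ^ 2 := by rw [hx]; ring
      rw [← this]; exact hx2
    refine ⟨⌊r⌋₊, ?_⟩
    set K := ⌊r⌋₊ with hK
    have hK1 : (K : ℝ) ≤ r := Nat.floor_le hr0.le
    have hK2 : r < (K : ℝ) + 1 := Nat.lt_floor_add_one r
    have hDD : ((D * (D - 1) : ℕ) : ℝ) ≤ (D : ℝ) ^ 2 := by
      have : D * (D - 1) ≤ D ^ 2 := by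
        rw [sq]; exact Nat.mul_le_mul_left _ (Nat.sub_le _ _)
      exact_mod_cast this
    set T := D * (D - 1) / (K + 1) with hT
    have hT1 : (T : ℝ) * (K + 1) ≤ (D : ℝ) ^ 2 := by
      have : T * (K + 1) ≤ D * (D - 1) := Nat.div_mul_le_self _ _
      have h' : ((T * (K + 1) : ℕ) : ℝ) ≤ ((D * (D - 1) : ℕ) : ℝ) := by exact_mod_cast this
      push_cast at h'
      push_cast at hDD
      linarith
    have hT0 : (0 : ℝ) ≤ T := Nat.cast_nonneg _
    have hTr : 256 * (T : ℝ) ≤ N := by
      have h1 : (T : ℝ) * r ≤ (T : ℝ) * (K + 1) := mul_le_mul_of_nonneg_left hK2.le hT0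
      have h2 : 256 * (T : ℝ) * r ≤ r ^ 2 * r := by nlinarith
      have h3 : 256 * (T : ℝ) ≤ r ^ 2 := le_of_mul_le_mul_right h2 hr0
      rwa [hr2] at h3
    have hKD : 256 * (((K - 1) * (D * (D - 1)) : ℕ) : ℝ) ≤ N ^ 2 := by
      have h1 : ((K - 1 : ℕ) : ℝ) ≤ r := by
        have : ((K - 1 : ℕ) : ℝ) ≤ (K : ℝ) := by exact_mod_cast Nat.sub_le _ _
        linarith
      have h2 : (((K - 1) * (D * (D - 1)) : ℕ) : ℝ) ≤ r * (D : ℝ) ^ 2 := by
        rw [Nat.cast_mul]
        exact mul_le_mul h1 hDD (Nat.cast_nonneg _) hr0.le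
      have h3 : r * (256 * (D : ℝ) ^ 2) ≤ r * r ^ 3 := mul_le_mul_of_nonneg_left hD2r hr0.le
      have h4 : r * r ^ 3 = N ^ 2 := by rw [← hr2]; ring
      nlinarith
    have goal : (16 : ℝ) * ((D + D + T) * (2 * k + 1) + 4 * (((K - 1) * (D * (D - 1)) : ℕ) : ℝ)) ≤
        (2 * k + 1) * (2 * k + 3) := by
      have ek : (2 * (k : ℝ)) = N - 4 := by rw [hNdef]; ring
      rw [ek]
      have hxD : (D : ℝ) = x / 16 := by rw [hx]; ring
      rw [hxD]
      have hN3 : 0 ≤ N - 3 := by linarith
      have h1 : x * (N - 3) ≤ (315 / 1000) * N * (N - 3) := by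
        apply mul_le_mul_of_nonneg_right _ hN3
        linarith
      have h2 : (T : ℝ) * (N - 3) ≤ (N / 256) * (N - 3) := by
        apply mul_le_mul_of_nonneg_right _ hN3
        linarith
      nlinarith
    exact_mod_cast goal

variable {W : Type*} [Fintype W] [DecidableEq W]

open Classical in
/-- Main pairing theorem. -/
theorem exists_good_pairing {m : ℕ} (hW : Fintype.card W = 2 * m) (H : SimpleGraph W)
    (bad : W → W → Prop) (hsymm : ∀ a b, bad a b → bad b a) (D : ℕ)
    (hdeg : ∀ w, (univ.filter (fun c => H.Adj w c)).card ≤ D)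
    (hbad : ∀ w, (univ.filter (fun c => bad w c)).card ≤ D)
    (hN : (16 * D) ^ 4 ≤ (Fintype.card W) ^ 3) :
    ∃ e : Fin m × Bool ≃ W, (∀ x, ¬ H.Adj x (partner e x)) ∧ (∀ x, ¬ bad x (partner e x)) ∧
      ∀ x y, y ≠ x → y ≠ partner e x → ¬ (H.Adj x y ∧ H.Adj x (partner e y) ∧
        H.Adj (partner e x) y ∧ H.Adj (partner e x) (partner e y)) := by
  rcases Nat.eq_zero_or_pos D with hD | hD
  · subst hD
    have hne : Nonempty (Fin m × Bool ≃ W) := by
      rw [← Fintype.card_eq]
      simp [hW, mul_comm]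
    obtain ⟨e⟩ := hne
    have hH : ∀ x y, ¬ H.Adj x y := by
      intro x y h
      have h2 := Nat.le_zero.1 (hdeg x)
      rw [card_eq_zero] at h2
      have h3 : y ∈ univ.filter (fun c => H.Adj x c) := by simpa using h
      rw [h2] at h3
      simp at h3
    have hB : ∀ x y, ¬ bad x y := by
      intro x y h
      have h2 := Nat.le_zero.1 (hbad x)
      rw [card_eq_zero] at h2
      have h3 : y ∈ univ.filter (fun c => bad x c) := by simpa using h
      rw [h2] at h3
      simp at h3
    exact ⟨e, fun x => hH _ _, fun x => hB _ _, fun x y _ _ h => hH _ _ h.1⟩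
  · rw [hW] at hN
    have hm : 2 ≤ m := by
      by_contra hcon
      push Not at hcon
      have h1 : (16 * 1) ^ 4 ≤ (16 * D) ^ 4 := Nat.pow_le_pow_left (by omega) 4
      have h2 : (2 * m) ^ 3 ≤ 2 ^ 3 := Nat.pow_le_pow_left (by omega) 3
      norm_num at h1 h2
      omega
    obtain ⟨K, hK⟩ := numeric_aux m D hD hN
    exact exists_pairing_raw hm hW H bad hsymm D D K hdeg hbad hK

open Classical in
/-- Involution form. -/
theorem exists_good_involution (H : SimpleGraph W)
    (bad : W → W → Prop) (hsymm : ∀ a b, bad a b → bad b a) (D : ℕ)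
    (hdeg : ∀ w, (univ.filter (fun c => H.Adj w c)).card ≤ D)
    (hbad : ∀ w, (univ.filter (fun c => bad w c)).card ≤ D)
    (hev : Even (Fintype.card W))
    (hN : (16 * D) ^ 4 ≤ (Fintype.card W) ^ 3) :
    ∃ s : W → W, (∀ x, s (s x) = x) ∧ (∀ x, s x ≠ x) ∧ (∀ x, ¬ H.Adj x (s x)) ∧
      (∀ x, ¬ bad x (s x)) ∧ ∀ x y, y ≠ x → y ≠ s x →
        ¬ (H.Adj x y ∧ H.Adj x (s y) ∧ H.Adj (s x) y ∧ H.Adj (s x) (s y)) := by
  obtain ⟨m, hm⟩ := hev
  obtain ⟨e, h1, h2, h3⟩ := exists_good_pairing (m := m) (by omega) H bad hsymm D hdeg hbad hN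
  exact ⟨partner e, partner_partner e, partner_ne e, h1, h2, h3⟩

end Vale.Agent.P060
end

section

namespace Vale.Agent.P060

open Finset

variable {α β : Type*} [Fintype α] [DecidableEq α] [Fintype β] [DecidableEq β]

/-- Switching bound for injections. -/
theorem inj_switch_bound (P : (α ↪ β) → Prop) (x : α) (s : β) (Z : Finset β)
    (hP : ∀ z ∈ Z, ∀ f : α ↪ β, P f → f x = s → P (f.trans (Equiv.swap s z).toEmbedding)) :
    Nat.card {f : α ↪ β // f x = s ∧ P f} * Z.card ≤ Nat.card {f : α ↪ β // P f} := by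
  classical
  let g : {f : α ↪ β // f x = s ∧ P f} × Z → {f : α ↪ β // P f} :=
    fun y => ⟨y.1.1.trans (Equiv.swap s y.2.1).toEmbedding, hP y.2.1 y.2.2 y.1.1 y.1.2.2 y.1.2.1⟩
  have hg : Function.Injective g := by
    rintro ⟨⟨f, hf1, hf2⟩, ⟨z, hz⟩⟩ ⟨⟨f', hf1', hf2'⟩, ⟨z', hz'⟩⟩ h
    simp only [g, Subtype.mk.injEq] at h
    have h1 : (f.trans (Equiv.swap s z).toEmbedding) x = z := by
      simp [hf1]
    have h2 : (f'.trans (Equiv.swap s z').toEmbedding) x = z' := by
      simp [hf1']
    have hzz : z = z' := by rw [← h1, ← h2, h]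
    subst hzz
    have hff : f = f' := by
      ext y
      have := congrArg (fun e : α ↪ β => e y) h
      simpa using this
    subst hff
    rfl
  have := Nat.card_le_card_of_injective g hg
  rwa [Nat.card_prod, Nat.card_eq_fintype_card (α := Z), Fintype.card_coe] at this

/-- Event of one or two assignments. -/
def IEv (i : (α × β) ⊕ (α × β × α × β)) (f : α ↪ β) : Prop :=
  Sum.elim (fun x : α × β => f x.1 = x.2)
    (fun x : α × β × α × β => f x.1 = x.2.1 ∧ f x.2.2.1 = x.2.2.2) i

/-- Support on the left. -/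
def suppL (i : (α × β) ⊕ (α × β × α × β)) : Finset α :=
  Sum.elim (fun x : α × β => {x.1}) (fun x : α × β × α × β => {x.1, x.2.2.1}) i

/-- Support on the right. -/
def suppR (i : (α × β) ⊕ (α × β × α × β)) : Finset β :=
  Sum.elim (fun x : α × β => {x.2}) (fun x : α × β × α × β => {x.2.1, x.2.2.2}) i

omit [Fintype α] [DecidableEq α] [Fintype β] in
theorem inj_pair_switch (f : α ↪ β) {x y : α} {s t z : β} (hx : f x = s) (hyx : y ≠ x)
    (hts : t ≠ s) (h : (f.trans (Equiv.swap s z).toEmbedding) y = t) : f y = t := by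
  have hfy : f y ≠ s := by
    intro h'
    exact hyx (f.injective (h'.trans hx.symm))
  simp only [Function.Embedding.trans_apply, Equiv.coe_toEmbedding] at h
  by_cases hz : f y = z
  · rw [hz, Equiv.swap_apply_right] at h
    exact absurd h.symm hts
  · rwa [Equiv.swap_apply_of_ne_of_ne hfy hz] at h

omit [Fintype α] [Fintype β] in
theorem iev_switch (f : α ↪ β) {x : α} {s z : β} (hx : f x = s)
    (j : (α × β) ⊕ (α × β × α × β)) (hjx : x ∉ suppL j) (hjs : s ∉ suppR j)
    (h : IEv j (f.trans (Equiv.swap s z).toEmbedding)) : IEv j f := by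
  rcases j with ⟨y, t⟩ | ⟨y, t, y', t'⟩
  · simp only [suppL, suppR, Sum.elim_inl, Sum.elim_inr, mem_singleton] at hjx hjs
    exact inj_pair_switch f hx (Ne.symm hjx) (Ne.symm hjs) h
  · simp only [suppL, suppR, Sum.elim_inl, Sum.elim_inr, mem_insert, mem_singleton, not_or] at hjx hjs
    exact ⟨inj_pair_switch f hx (Ne.symm hjx.1) (Ne.symm hjs.1) h.1,
      inj_pair_switch f hx (Ne.symm hjx.2) (Ne.symm hjs.2) h.2⟩

theorem iev_pair_bound (x : α) (s : β) (T : Finset ((α × β) ⊕ (α × β × α × β)))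
    (hT : ∀ j ∈ T, x ∉ suppL j ∧ s ∉ suppR j) :
    Nat.card {f : α ↪ β // f x = s ∧ ∀ j ∈ T, ¬ IEv j f} * Fintype.card β ≤
      Nat.card {f : α ↪ β // ∀ j ∈ T, ¬ IEv j f} := by
  have h := inj_switch_bound (fun f : α ↪ β => ∀ j ∈ T, ¬ IEv j f) x s univ (by
    intro z _ f hf hx j hj hE
    exact hf j hj (iev_switch f hx j (hT j hj).1 (hT j hj).2 hE))
  rwa [card_univ] at h

theorem iev_two_bound (x : α) (s : β) (y : α) (t : β) (hxy : x ≠ y) (hst : s ≠ t)
    (T : Finset ((α × β) ⊕ (α × β × α × β)))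
    (hT : ∀ j ∈ T, (x ∉ suppL j ∧ y ∉ suppL j) ∧ (s ∉ suppR j ∧ t ∉ suppR j)) :
    Nat.card {f : α ↪ β // (f x = s ∧ f y = t) ∧ ∀ j ∈ T, ¬ IEv j f} *
        ((Fintype.card β - 1) * Fintype.card β) ≤
      Nat.card {f : α ↪ β // ∀ j ∈ T, ¬ IEv j f} := by
  have h1 := inj_switch_bound (fun f : α ↪ β => f y = t ∧ ∀ j ∈ T, ¬ IEv j f) x s
    (univ.erase t) (by
      intro z hz f hf hx
      refine ⟨?_, ?_⟩
      · have hzt : z ≠ t := (mem_erase.1 hz).1
        simp only [Function.Embedding.trans_apply, Equiv.coe_toEmbedding, hf.1]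
        exact Equiv.swap_apply_of_ne_of_ne hst.symm hzt.symm
      · intro j hj hE
        exact hf.2 j hj (iev_switch f hx j (hT j hj).1.1 (hT j hj).2.1 hE))
  have h2 := iev_pair_bound y t T (fun j hj => ⟨(hT j hj).1.2, (hT j hj).2.2⟩)
  rw [card_erase_of_mem (mem_univ t), card_univ] at h1
  have h3 : Nat.card {f : α ↪ β // (f x = s ∧ f y = t) ∧ ∀ j ∈ T, ¬ IEv j f} =
      Nat.card {f : α ↪ β // f x = s ∧ f y = t ∧ ∀ j ∈ T, ¬ IEv j f} := by
    congr 1
    simp only [and_assoc]
  rw [h3, ← mul_assoc]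
  calc _ ≤ _ := Nat.mul_le_mul_right _ h1
    _ ≤ _ := h2

/-- Existence of an injection which avoids all bad assignments and all bad pairs. -/
theorem exists_inj_avoiding (hβ : 2 ≤ Fintype.card β) (hαβ : Fintype.card α ≤ Fintype.card β)
    (E2 : Finset (α × β)) (E4 : Finset (α × β × α × β))
    (hE4 : ∀ x ∈ E4, x.1 ≠ x.2.2.1 ∧ x.2.1 ≠ x.2.2.2)
    (hcount : ∀ (x : α) (s : β), 8 * (((E2.filter (fun e => x = e.1)).card +
        (E2.filter (fun e => s = e.2)).card) * (Fintype.card β - 1) +
      ((E4.filter (fun e => x = e.1 ∨ x = e.2.2.1)).card +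
        (E4.filter (fun e => s = e.2.1 ∨ s = e.2.2.2)).card)) ≤
      (Fintype.card β - 1) * Fintype.card β) :
    ∃ f : α ↪ β, (∀ e ∈ E2, f e.1 ≠ e.2) ∧
      ∀ e ∈ E4, ¬ (f e.1 = e.2.1 ∧ f e.2.2.1 = e.2.2.2) := by
  classical
  have hne : Nonempty (α ↪ β) := Function.Embedding.nonempty_of_card_le hαβ
  obtain ⟨k, hk⟩ : ∃ k, Fintype.card β = k + 2 := ⟨Fintype.card β - 2, by omega⟩
  have e1 : Fintype.card β - 1 = k + 1 := by omega
  have hA : (0 : ℝ) < k + 1 := by positivity
  have hB : (0 : ℝ) < k + 2 := by positivity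
  set p : (α × β) ⊕ (α × β × α × β) → ℝ := fun i =>
    Sum.elim (fun _ => 1 / ((k : ℝ) + 2)) (fun _ => 1 / (((k : ℝ) + 1) * (k + 2))) i
    with hp
  have hp0 : ∀ i, 0 ≤ p i := by
    rintro (x | x) <;> simp only [hp, Sum.elim_inl, Sum.elim_inr] <;> positivity
  have hSL : ∀ x : α, ∑ j ∈ (E2.disjSum E4).filter (fun j => x ∈ suppL j), p j =
      (((E2.filter (fun e => x = e.1)).card : ℝ) * (k + 1) +
        (E4.filter (fun e => x = e.1 ∨ x = e.2.2.1)).card) / (((k : ℝ) + 1) * (k + 2)) := by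
    intro v
    have h1 : ∑ j ∈ (E2.disjSum E4).filter (fun j => v ∈ suppL j), p j =
        (E2.filter (fun e => v = e.1)).card * (1 / ((k : ℝ) + 2)) +
        (E4.filter (fun e => v = e.1 ∨ v = e.2.2.1)).card *
          (1 / (((k : ℝ) + 1) * (k + 2))) := by
      rw [sum_filter, sum_disjSum]
      congr 1
      · rw [← nsmul_eq_mul, ← sum_const, sum_filter]
        apply sum_congr rfl
        rintro ⟨a, b⟩ _
        simp only [suppL, mem_singleton, hp, Sum.elim_inl]
      · rw [← nsmul_eq_mul, ← sum_const, sum_filter]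
        apply sum_congr rfl
        rintro ⟨a, b, c, d⟩ _
        simp only [suppL, mem_insert, mem_singleton, hp, Sum.elim_inr]
    rw [h1]
    field_simp
  have hSR : ∀ s : β, ∑ j ∈ (E2.disjSum E4).filter (fun j => s ∈ suppR j), p j =
      (((E2.filter (fun e => s = e.2)).card : ℝ) * (k + 1) +
        (E4.filter (fun e => s = e.2.1 ∨ s = e.2.2.2)).card) / (((k : ℝ) + 1) * (k + 2)) := by
    intro v
    have h1 : ∑ j ∈ (E2.disjSum E4).filter (fun j => v ∈ suppR j), p j =
        (E2.filter (fun e => v = e.2)).card * (1 / ((k : ℝ) + 2)) +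
        (E4.filter (fun e => v = e.2.1 ∨ v = e.2.2.2)).card *
          (1 / (((k : ℝ) + 1) * (k + 2))) := by
      rw [sum_filter, sum_disjSum]
      congr 1
      · rw [← nsmul_eq_mul, ← sum_const, sum_filter]
        apply sum_congr rfl
        rintro ⟨a, b⟩ _
        simp only [suppR, mem_singleton, hp, Sum.elim_inl]
      · rw [← nsmul_eq_mul, ← sum_const, sum_filter]
        apply sum_congr rfl
        rintro ⟨a, b, c, d⟩ _
        simp only [suppR, mem_insert, mem_singleton, hp, Sum.elim_inr]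
    rw [h1]
    field_simp
  have hS : ∀ (x : α) (s : β), ∑ j ∈ (E2.disjSum E4).filter (fun j => x ∈ suppL j), p j +
      ∑ j ∈ (E2.disjSum E4).filter (fun j => s ∈ suppR j), p j ≤ 1 / 8 := by
    intro x s
    rw [hSL, hSR, ← add_div, div_le_div_iff₀ (by positivity) (by norm_num)]
    have h2 := hcount x s
    rw [e1, hk] at h2
    have h3 : 8 * ((((E2.filter (fun e => x = e.1)).card : ℝ) +
        (E2.filter (fun e => s = e.2)).card) * (k + 1) +
      ((E4.filter (fun e => x = e.1 ∨ x = e.2.2.1)).card +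
        (E4.filter (fun e => s = e.2.1 ∨ s = e.2.2.2)).card)) ≤
        (k + 1) * (k + 2) := by exact_mod_cast h2
    nlinarith
  obtain ⟨f, hf⟩ := local_lemma (Ω := α ↪ β) (fun i f => IEv i f)
    (fun i j => ¬ (Disjoint (suppL i) (suppL j) ∧ Disjoint (suppR i) (suppR j))) p hp0
    (E2.disjSum E4)
    (by
      intro i h
      rw [disjoint_self] at h
      rcases i with ⟨a, b⟩ | ⟨a, b, c, d⟩ <;> simp [suppL] at h)
    (by
      intro i hi T hT hdis
      have hdis' : ∀ j ∈ T, Disjoint (suppL i) (suppL j) ∧ Disjoint (suppR i) (suppR j) :=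
        fun j hj => by
          have := hdis j hj
          rwa [not_not] at this
      rcases i with ⟨a, b⟩ | ⟨a, b, c, d⟩
      · have h := iev_pair_bound a b T (fun j hj => by
          have h := hdis' j hj
          simp only [suppL, suppR, Sum.elim_inl, Sum.elim_inr, disjoint_singleton_left] at h
          exact h)
        rw [hk] at h
        have h' : (Nat.card {f : α ↪ β // f a = b ∧ ∀ j ∈ T, ¬ IEv j f} : ℝ)
            * (k + 2) ≤ Nat.card {f : α ↪ β // ∀ j ∈ T, ¬ IEv j f} := by
          exact_mod_cast h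
        simp only [hp, Sum.elim_inl, IEv]
        rw [div_mul_eq_mul_div, one_mul, le_div_iff₀ hB]
        exact h'
      · have hx := hE4 (a, b, c, d) (by simpa using hi)
        have h := iev_two_bound a b c d hx.1 hx.2 T (fun j hj => by
          have h := hdis' j hj
          simp only [suppL, suppR, Sum.elim_inl, Sum.elim_inr, disjoint_insert_left, disjoint_singleton_left] at h
          exact h)
        rw [e1, hk] at h
        have h' : (Nat.card {f : α ↪ β // (f a = b ∧ f c = d) ∧
            ∀ j ∈ T, ¬ IEv j f} : ℝ) * ((k + 1) * (k + 2)) ≤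
            Nat.card {f : α ↪ β // ∀ j ∈ T, ¬ IEv j f} := by
          exact_mod_cast h
        simp only [hp, Sum.elim_inr, IEv]
        rw [div_mul_eq_mul_div, one_mul, le_div_iff₀ (mul_pos hA hB)]
        exact h')
    (by
      intro i hi T hT hΓ
      have hsub : T ⊆ (suppL i).biUnion
          (fun v => (E2.disjSum E4).filter (fun j => v ∈ suppL j)) ∪ (suppR i).biUnion
          (fun v => (E2.disjSum E4).filter (fun j => v ∈ suppR j)) := by
        intro j hj
        have h := hΓ j hj
        rw [not_and_or, not_disjoint_iff, not_disjoint_iff] at h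
        rcases h with ⟨v, hv1, hv2⟩ | ⟨v, hv1, hv2⟩
        · exact mem_union_left _ (mem_biUnion.2 ⟨v, hv1, mem_filter.2 ⟨hT hj, hv2⟩⟩)
        · exact mem_union_right _ (mem_biUnion.2 ⟨v, hv1, mem_filter.2 ⟨hT hj, hv2⟩⟩)
      have q1 := sum_le_sum_of_subset_of_nonneg hsub (fun j _ _ => hp0 j)
      have q2 : ∑ j ∈ (suppL i).biUnion
          (fun v => (E2.disjSum E4).filter (fun j => v ∈ suppL j)) ∪ (suppR i).biUnion
          (fun v => (E2.disjSum E4).filter (fun j => v ∈ suppR j)), p j ≤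
          ∑ j ∈ (suppL i).biUnion
          (fun v => (E2.disjSum E4).filter (fun j => v ∈ suppL j)), p j +
          ∑ j ∈ (suppR i).biUnion
          (fun v => (E2.disjSum E4).filter (fun j => v ∈ suppR j)), p j := by
        have h := sum_union_inter (s₁ := (suppL i).biUnion
          (fun v => (E2.disjSum E4).filter (fun j => v ∈ suppL j))) (s₂ := (suppR i).biUnion
          (fun v => (E2.disjSum E4).filter (fun j => v ∈ suppR j))) (f := p)
        have h2 : 0 ≤ ∑ b ∈ (suppL i).biUnion
          (fun v => (E2.disjSum E4).filter (fun j => v ∈ suppL j)) ∩ (suppR i).biUnion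
          (fun v => (E2.disjSum E4).filter (fun j => v ∈ suppR j)), p b :=
          sum_nonneg (fun b _ => hp0 b)
        linarith
      have q3 := sum_biUnion_le_sum_of_nonneg' (suppL i)
        (fun v => (E2.disjSum E4).filter (fun j => v ∈ suppL j)) p hp0
      have q4 := sum_biUnion_le_sum_of_nonneg' (suppR i)
        (fun v => (E2.disjSum E4).filter (fun j => v ∈ suppR j)) p hp0
      have q5 : ∑ v ∈ suppL i, ∑ j ∈ (E2.disjSum E4).filter (fun j => v ∈ suppL j), p j +
          ∑ v ∈ suppR i, ∑ j ∈ (E2.disjSum E4).filter (fun j => v ∈ suppR j), p j ≤ 1 / 4 := by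
        have hnn : ∀ v, 0 ≤ ∑ j ∈ (E2.disjSum E4).filter (fun j => v ∈ suppL j), p j :=
          fun v => sum_nonneg (fun j _ => hp0 j)
        have hnn' : ∀ v, 0 ≤ ∑ j ∈ (E2.disjSum E4).filter (fun j => v ∈ suppR j), p j :=
          fun v => sum_nonneg (fun j _ => hp0 j)
        rcases i with ⟨a, b⟩ | ⟨a, b, c, d⟩
        · simp only [suppL, suppR, Sum.elim_inl, Sum.elim_inr, sum_singleton]
          have := hS a b
          simp only [suppL, suppR, Sum.elim_inl, Sum.elim_inr] at this
          linarith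
        · have hx := hE4 (a, b, c, d) (by simpa using hi)
          have h1 := hS a b
          have h2 := hS c d
          simp only [suppL, suppR, Sum.elim_inl, Sum.elim_inr]
          simp only [suppL, suppR, Sum.elim_inl, Sum.elim_inr] at h1 h2
          rw [sum_pair hx.1, sum_pair hx.2]
          linarith
      linarith)
  refine ⟨f, ?_, ?_⟩
  · intro x hx h
    exact hf (Sum.inl x) (by simpa using hx) h
  · intro x hx h
    exact hf (Sum.inr x) (by simpa using hx) h

end Vale.Agent.P060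
end

section

namespace Vale.Agent.P060

open Finset

variable {V : Type*} [Fintype V] [DecidableEq V]

section
open Classical

/-- Triples `(b, c, d)` with `c ≠ d` common neighbours of `v` and `b`, of small codegree. -/
noncomputable def confl (H : SimpleGraph V) (K : ℕ) (v : V) : Finset (V × V × V) :=
  ((univ.erase v).filter (fun b => (common H v b).card ≤ K)).biUnion
    (fun b => (common H v b).offDiag.image (fun cd => (b, cd.1, cd.2)))

theorem confl_card (H : SimpleGraph V) (D K : ℕ)
    (hdeg : ∀ w, (univ.filter (fun c => H.Adj w c)).card ≤ D) (v : V) :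
    (confl H K v).card ≤ (K - 1) * (D * (D - 1)) := by
  calc (confl H K v).card ≤ ∑ b ∈ (univ.erase v).filter (fun b => (common H v b).card ≤ K),
        ((common H v b).offDiag.image (fun cd => (b, cd.1, cd.2))).card := card_biUnion_le
    _ ≤ ∑ b ∈ (univ.erase v).filter (fun b => (common H v b).card ≤ K),
        (K - 1) * (common H v b).card := by
        apply sum_le_sum
        intro b hb
        have hbK := (mem_filter.1 hb).2
        refine card_image_le.trans ?_
        rw [offDiag_card, ← Nat.sub_one_mul]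
        exact Nat.mul_le_mul_right _ (Nat.sub_le_sub_right hbK 1)
    _ ≤ ∑ b ∈ univ.erase v, (K - 1) * (common H v b).card :=
        sum_le_sum_of_subset (filter_subset _ _)
    _ = (K - 1) * ∑ b ∈ univ.erase v, (common H v b).card := by rw [mul_sum]
    _ ≤ _ := Nat.mul_le_mul_left _ (sum_common_le H D hdeg v)

theorem mem_confl (H : SimpleGraph V) (K : ℕ) {v b c d : V} (h1 : H.Adj v c) (h2 : H.Adj v d)
    (h3 : H.Adj b c) (h4 : H.Adj b d) (h5 : b ≠ v) (h6 : c ≠ d)
    (h7 : (common H v b).card ≤ K) : (b, c, d) ∈ confl H K v := by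
  refine mem_biUnion.2 ⟨b, mem_filter.2 ⟨mem_erase.2 ⟨h5, mem_univ _⟩, h7⟩, ?_⟩
  refine mem_image.2 ⟨(c, d), ?_, rfl⟩
  rw [mem_offDiag]
  simp only [common, mem_filter, mem_univ, true_and]
  exact ⟨⟨h1, h3⟩, ⟨h2, h4⟩, h6⟩

theorem high_card (H : SimpleGraph V) (D K : ℕ)
    (hdeg : ∀ w, (univ.filter (fun c => H.Adj w c)).card ≤ D) (v : V) :
    ((univ.erase v).filter (fun b => K < (common H v b).card)).card ≤
        D * (D - 1) / (K + 1) := by
  rw [Nat.le_div_iff_mul_le (Nat.succ_pos K)]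
  calc _ = ∑ b ∈ (univ.erase v).filter (fun b => K < (common H v b).card), (K + 1) := by
        rw [sum_const, smul_eq_mul]
    _ ≤ ∑ b ∈ (univ.erase v).filter (fun b => K < (common H v b).card),
        (common H v b).card := by
        apply sum_le_sum
        intro b hb
        exact (mem_filter.1 hb).2
    _ ≤ ∑ b ∈ univ.erase v, (common H v b).card :=
        sum_le_sum_of_subset (filter_subset _ _)
    _ ≤ _ := sum_common_le H D hdeg v

/-- Main injection theorem, raw numerical form. -/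
theorem exists_injection_raw (H : SimpleGraph V) (X S : Finset V) (hXS : Disjoint X S)
    (hS2 : 2 ≤ S.card) (hle : X.card ≤ S.card)
    (bad : V → V → Prop) (D B K : ℕ)
    (hdeg : ∀ w, (univ.filter (fun c => H.Adj w c)).card ≤ D)
    (hbad : ∀ x ∈ X, (S.filter (fun s => bad x s)).card ≤ B)
    (hnum : 8 * ((D + B + D * (D - 1) / (K + 1) + X.card) * (S.card - 1) +
      4 * ((K - 1) * (D * (D - 1)))) ≤ (S.card - 1) * S.card) :
    ∃ f : X ↪ S, (∀ x : X, ¬ H.Adj x.1 (f x).1) ∧ (∀ x : X, ¬ bad x.1 (f x).1) ∧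
      ∀ x y : X, x ≠ y → ¬ (H.Adj x.1 y.1 ∧ H.Adj x.1 (f y).1 ∧
        H.Adj (f x).1 y.1 ∧ H.Adj (f x).1 (f y).1) := by
  have hne : ∀ (x : X) (s : S), x.1 ≠ s.1 := by
    intro x s h
    exact (disjoint_left.1 hXS) x.2 (h ▸ s.2)
  set E2 : Finset (X × S) := univ.filter (fun e => H.Adj e.1.1 e.2.1 ∨ bad e.1.1 e.2.1 ∨
    K < (common H e.1.1 e.2.1).card) with hE2
  set E4 : Finset (X × S × X × S) := univ.filter (fun e =>
    (H.Adj e.1.1 e.2.2.1.1 ∧ H.Adj e.1.1 e.2.2.2.1 ∧ H.Adj e.2.1.1 e.2.2.1.1 ∧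
      H.Adj e.2.1.1 e.2.2.2.1) ∧ (common H e.1.1 e.2.1.1).card ≤ K ∧
      (common H e.2.2.1.1 e.2.2.2.1).card ≤ K) with hE4
  have hX2 : ∀ x : X, (E2.filter (fun e => x = e.1)).card ≤ D + B + D * (D - 1) / (K + 1) := by
    intro x
    have h1 : (E2.filter (fun e => x = e.1)).card ≤
        ((univ.filter (fun c => H.Adj x.1 c) ∪ S.filter (fun s => bad x.1 s)) ∪
          (univ.erase x.1).filter (fun b => K < (common H x.1 b).card)).card := by
      apply card_le_card_of_injOn (fun e => e.2.1)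
      · rintro ⟨y, s⟩ he
        simp only [hE2, coe_filter, mem_filter, mem_univ, true_and, Set.mem_ofPred_eq] at he
        obtain ⟨h, rfl⟩ := he
        simp only [coe_union, coe_filter, Set.mem_union, Set.mem_ofPred_eq, mem_univ, true_and,
          mem_erase, and_true]
        rcases h with h | h | h
        · exact Or.inl (Or.inl h)
        · exact Or.inl (Or.inr ⟨s.2, h⟩)
        · exact Or.inr ⟨(hne x s).symm, h⟩
      · rintro ⟨y, s⟩ he ⟨y', s'⟩ he' h
        simp only [coe_filter, Set.mem_ofPred_eq] at he he'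
        have h' : s = s' := Subtype.ext h
        rw [← he.2, ← he'.2, h']
    calc _ ≤ _ := h1
      _ ≤ _ := card_union_le _ _
      _ ≤ (D + B) + D * (D - 1) / (K + 1) :=
          Nat.add_le_add ((card_union_le _ _).trans (Nat.add_le_add (hdeg _) (hbad _ x.2)))
            (high_card H D K hdeg x.1)
  have hS2' : ∀ s : S, (E2.filter (fun e => s = e.2)).card ≤ X.card := by
    intro s
    have h1 : (E2.filter (fun e => s = e.2)).card ≤ X.card := by
      apply card_le_card_of_injOn (fun e => e.1.1)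
      · rintro ⟨y, s⟩ he
        exact y.2
      · rintro ⟨y, s⟩ he ⟨y', s'⟩ he' h
        simp only [coe_filter, Set.mem_ofPred_eq] at he he'
        have h' : y = y' := Subtype.ext h
        rw [← he.2, ← he'.2, h']
    exact h1
  have hX4 : ∀ x : X, (E4.filter (fun e => x = e.1 ∨ x = e.2.2.1)).card ≤
      2 * ((K - 1) * (D * (D - 1))) := by
    intro x
    have h1 : (E4.filter (fun e => x = e.1)).card ≤ (confl H K x.1).card := by
      apply card_le_card_of_injOn (fun e => (e.2.1.1, e.2.2.1.1, e.2.2.2.1))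
      · rintro ⟨y, s, z, t⟩ he
        simp only [hE4, coe_filter, mem_filter, mem_univ, true_and, Set.mem_ofPred_eq] at he
        obtain ⟨⟨⟨h1, h2, h3, h4⟩, h5, h6⟩, rfl⟩ := he
        exact mem_confl H K h1 h2 h3 h4 (hne x s).symm (hne z t) h5
      · rintro ⟨y, s, z, t⟩ he ⟨y', s', z', t'⟩ he' h
        simp only [coe_filter, Set.mem_ofPred_eq] at he he'
        simp only [Prod.mk.injEq] at h
        rw [← he.2, ← he'.2, Subtype.ext h.1, Subtype.ext h.2.1, Subtype.ext h.2.2]
    have h2 : (E4.filter (fun e => x = e.2.2.1)).card ≤ (confl H K x.1).card := by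
      apply card_le_card_of_injOn (fun e => (e.2.2.2.1, e.1.1, e.2.1.1))
      · rintro ⟨z, t, y, s⟩ he
        simp only [hE4, coe_filter, mem_filter, mem_univ, true_and, Set.mem_ofPred_eq] at he
        obtain ⟨⟨⟨h1, h2, h3, h4⟩, h5, h6⟩, rfl⟩ := he
        exact mem_confl H K h1.symm h3.symm h2.symm h4.symm (hne x s).symm (hne z t) h6
      · rintro ⟨z, t, y, s⟩ he ⟨z', t', y', s'⟩ he' h
        simp only [coe_filter, Set.mem_ofPred_eq] at he he'
        simp only [Prod.mk.injEq] at h
        rw [← he.2, ← he'.2, Subtype.ext h.1, Subtype.ext h.2.1, Subtype.ext h.2.2]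
    have h3 := confl_card H D K hdeg x.1
    rw [filter_or]
    refine (card_union_le _ _).trans ?_
    omega
  have hS4 : ∀ s : S, (E4.filter (fun e => s = e.2.1 ∨ s = e.2.2.2)).card ≤
      2 * ((K - 1) * (D * (D - 1))) := by
    intro s
    have h1 : (E4.filter (fun e => s = e.2.1)).card ≤ (confl H K s.1).card := by
      apply card_le_card_of_injOn (fun e => (e.1.1, e.2.2.1.1, e.2.2.2.1))
      · rintro ⟨y, s', z, t⟩ he
        simp only [hE4, coe_filter, mem_filter, mem_univ, true_and, Set.mem_ofPred_eq] at he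
        obtain ⟨⟨⟨h1, h2, h3, h4⟩, h5, h6⟩, rfl⟩ := he
        exact mem_confl H K h3 h4 h1 h2 (hne y s) (hne z t) (by rwa [common_comm])
      · rintro ⟨y, s, z, t⟩ he ⟨y', s', z', t'⟩ he' h
        simp only [coe_filter, Set.mem_ofPred_eq] at he he'
        simp only [Prod.mk.injEq] at h
        rw [← he.2, ← he'.2, Subtype.ext h.1, Subtype.ext h.2.1, Subtype.ext h.2.2]
    have h2 : (E4.filter (fun e => s = e.2.2.2)).card ≤ (confl H K s.1).card := by
      apply card_le_card_of_injOn (fun e => (e.2.2.1.1, e.1.1, e.2.1.1))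
      · rintro ⟨z, t, y, s'⟩ he
        simp only [hE4, coe_filter, mem_filter, mem_univ, true_and, Set.mem_ofPred_eq] at he
        obtain ⟨⟨⟨h1, h2, h3, h4⟩, h5, h6⟩, rfl⟩ := he
        exact mem_confl H K h2.symm h4.symm h1.symm h3.symm (hne y s) (hne z t)
          (by rwa [common_comm])
      · rintro ⟨z, t, y, s⟩ he ⟨z', t', y', s'⟩ he' h
        simp only [coe_filter, Set.mem_ofPred_eq] at he he'
        simp only [Prod.mk.injEq] at h
        rw [← he.2, ← he'.2, Subtype.ext h.1, Subtype.ext h.2.1, Subtype.ext h.2.2]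
    have h3 := confl_card H D K hdeg s.1
    rw [filter_or]
    refine (card_union_le _ _).trans ?_
    omega
  obtain ⟨f, hf2, hf4⟩ := exists_inj_avoiding (α := X) (β := S)
    (by rwa [Fintype.card_coe]) (by rwa [Fintype.card_coe, Fintype.card_coe]) E2 E4 (by
      rintro ⟨y, s, z, t⟩ he
      simp only [hE4, mem_filter, mem_univ, true_and] at he
      obtain ⟨⟨h1, h2, h3, h4⟩, h5, h6⟩ := he
      refine ⟨fun h => h1.ne (congrArg Subtype.val h), fun h => h4.ne (congrArg Subtype.val h)⟩)
    (by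
      intro x s
      rw [Fintype.card_coe]
      refine le_trans ?_ hnum
      have h1 := hX2 x
      have h2 := hS2' s
      have h3 := hX4 x
      have h4 := hS4 s
      apply Nat.mul_le_mul_left
      apply Nat.add_le_add
      · apply Nat.mul_le_mul_right
        calc _ ≤ (D + B + D * (D - 1) / (K + 1)) + X.card := by
              refine Nat.add_le_add ?_ ?_
              · convert h1
              · convert h2
          _ = _ := rfl
      · calc _ ≤ 2 * ((K - 1) * (D * (D - 1))) + 2 * ((K - 1) * (D * (D - 1))) := by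
              refine Nat.add_le_add ?_ ?_
              · convert h3
              · convert h4
          _ = _ := by ring)
  have hb : ∀ x : X, ¬ (H.Adj x.1 (f x).1 ∨ bad x.1 (f x).1 ∨
      K < (common H x.1 (f x).1).card) := by
    intro x h
    exact hf2 (x, f x) (by simp only [hE2, mem_filter, mem_univ, true_and]; exact h) rfl
  refine ⟨f, fun x h => hb x (Or.inl h), fun x h => hb x (Or.inr (Or.inl h)), ?_⟩
  rintro x y _ ⟨h1, h2, h3, h4⟩
  have hk1 : (common H x.1 (f x).1).card ≤ K := by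
    by_contra hcon
    exact hb x (Or.inr (Or.inr (not_le.1 hcon)))
  have hk2 : (common H y.1 (f y).1).card ≤ K := by
    by_contra hcon
    exact hb y (Or.inr (Or.inr (not_le.1 hcon)))
  refine hf4 (x, f x, y, f y) ?_ ⟨rfl, rfl⟩
  simp only [hE4, mem_filter, mem_univ, true_and]
  exact ⟨⟨h1, h2, h3, h4⟩, hk1, hk2⟩

end

end Vale.Agent.P060
end

section

namespace Vale.Agent.P060

open Finset

theorem numeric_inj (M k D R : ℕ) (hD : 1 ≤ D) (hR : (64 * D) ^ 4 ≤ R ^ 3)
    (h1 : R ≤ 2 * k + M) (h2 : 12 * k < R) :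
    214 ≤ M ∧ 10 * k < M ∧ ∃ K : ℕ, 8 * ((D + D + D * (D - 1) / (K + 1) + k) * (M - 1) +
      4 * ((K - 1) * (D * (D - 1)))) ≤ (M - 1) * M := by
  have hR256 : 256 ≤ R := by
    by_contra hcon
    push Not at hcon
    have h1 : (64 * 1) ^ 4 ≤ (64 * D) ^ 4 := Nat.pow_le_pow_left (by omega) 4
    have h2 : R ^ 3 ≤ 255 ^ 3 := Nat.pow_le_pow_left (by omega) 3
    norm_num at h1 h2
    omega
  have hM214 : 214 ≤ M := by omega
  have hkM : 10 * k < M := by omega
  refine ⟨hM214, hkM, ?_⟩
  have h5R : 5 * R < 6 * M := by omega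
  set x : ℝ := 64 * D with hx
  have hx0 : 0 ≤ x := by positivity
  have hM : (214 : ℝ) ≤ M := by exact_mod_cast hM214
  have hM0 : (0 : ℝ) < M := by linarith
  have hk : 10 * (k : ℝ) ≤ M := by exact_mod_cast hkM.le
  have hxR : x ^ 4 ≤ (R : ℝ) ^ 3 := by
    have : (((64 * D) ^ 4 : ℕ) : ℝ) ≤ ((R ^ 3 : ℕ) : ℝ) := by exact_mod_cast hR
    push_cast at this
    simpa [hx] using this
  have hRM : (R : ℝ) ≤ 6 / 5 * M := by
    have : 5 * (R : ℝ) ≤ 6 * M := by exact_mod_cast h5R.le
    linarith
  have hxM : x ^ 4 ≤ 1.728 * (M : ℝ) ^ 3 := by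
    have h3 : (R : ℝ) ^ 3 ≤ (6 / 5 * M) ^ 3 := pow_le_pow_left₀ (Nat.cast_nonneg _) hRM 3
    have h4 : (6 / 5 * (M : ℝ)) ^ 3 = 1.728 * (M : ℝ) ^ 3 := by ring
    linarith
  have hxlin : 10 * x ≤ 3 * M := by
    by_contra hcon
    push Not at hcon
    have h1 : (3 * (M : ℝ)) ^ 4 < (10 * x) ^ 4 :=
      pow_lt_pow_left₀ hcon (by positivity) (by norm_num)
    have h2 : (3 * (M : ℝ)) ^ 4 = 81 * ((M : ℝ) ^ 3 * M) := by ring
    have h3 : (M : ℝ) ^ 3 * 214 ≤ (M : ℝ) ^ 3 * M := by
      apply mul_le_mul_of_nonneg_left hM (by positivity)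
    have h4 : (10 * x) ^ 4 = 10000 * x ^ 4 := by ring
    have h5 : 0 < (M : ℝ) ^ 3 := by positivity
    rw [h2, h4] at h1
    nlinarith
  set r : ℝ := Real.sqrt M with hr
  have hr2 : r ^ 2 = M := Real.sq_sqrt hM0.le
  have hr0 : 0 < r := Real.sqrt_pos.2 hM0
  have hx2 : x ^ 2 ≤ 2 * r ^ 3 := by
    by_contra hcon
    push Not at hcon
    have h1 : (2 * r ^ 3) ^ 2 < (x ^ 2) ^ 2 := pow_lt_pow_left₀ hcon (by positivity) (by norm_num)
    have h2 : (2 * r ^ 3) ^ 2 = 4 * (M : ℝ) ^ 3 := by rw [← hr2]; ring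
    have h3 : (x ^ 2) ^ 2 = x ^ 4 := by ring
    have h5 : 0 < (M : ℝ) ^ 3 := by positivity
    rw [h2, h3] at h1
    linarith
  have hD2r : 2048 * (D : ℝ) ^ 2 ≤ r ^ 3 := by
    have : x ^ 2 = 4096 * (D : ℝ) ^ 2 := by rw [hx]; ring
    rw [this] at hx2
    linarith
  refine ⟨⌊r⌋₊, ?_⟩
  set K := ⌊r⌋₊ with hK
  have hK1 : (K : ℝ) ≤ r := Nat.floor_le hr0.le
  have hK2 : r < (K : ℝ) + 1 := Nat.lt_floor_add_one r
  have hDD : ((D * (D - 1) : ℕ) : ℝ) ≤ (D : ℝ) ^ 2 := by
    have : D * (D - 1) ≤ D ^ 2 := by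
      rw [sq]; exact Nat.mul_le_mul_left _ (Nat.sub_le _ _)
    exact_mod_cast this
  set T := D * (D - 1) / (K + 1) with hT
  have hT1 : (T : ℝ) * (K + 1) ≤ (D : ℝ) ^ 2 := by
    have : T * (K + 1) ≤ D * (D - 1) := Nat.div_mul_le_self _ _
    have h' : ((T * (K + 1) : ℕ) : ℝ) ≤ ((D * (D - 1) : ℕ) : ℝ) := by exact_mod_cast this
    push_cast at h'
    push_cast at hDD
    linarith
  have hT0 : (0 : ℝ) ≤ T := Nat.cast_nonneg _
  have hTr : 2048 * (T : ℝ) ≤ M := by
    have h1 : (T : ℝ) * r ≤ (T : ℝ) * (K + 1) := mul_le_mul_of_nonneg_left hK2.le hT0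
    have h2 : 2048 * (T : ℝ) * r ≤ r ^ 2 * r := by nlinarith
    have h3 : 2048 * (T : ℝ) ≤ r ^ 2 := le_of_mul_le_mul_right h2 hr0
    rwa [hr2] at h3
  have hKD : 2048 * (((K - 1) * (D * (D - 1)) : ℕ) : ℝ) ≤ (M : ℝ) ^ 2 := by
    have h1 : ((K - 1 : ℕ) : ℝ) ≤ r := by
      have : ((K - 1 : ℕ) : ℝ) ≤ (K : ℝ) := by exact_mod_cast Nat.sub_le _ _
      linarith
    have h2 : (((K - 1) * (D * (D - 1)) : ℕ) : ℝ) ≤ r * (D : ℝ) ^ 2 := by
      rw [Nat.cast_mul]
      exact mul_le_mul h1 hDD (Nat.cast_nonneg _) hr0.le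
    have h3 : r * (2048 * (D : ℝ) ^ 2) ≤ r * r ^ 3 := mul_le_mul_of_nonneg_left hD2r hr0.le
    have h4 : r * r ^ 3 = (M : ℝ) ^ 2 := by rw [← hr2]; ring
    nlinarith
  have hM1 : ((M - 1 : ℕ) : ℝ) = (M : ℝ) - 1 := by
    rw [Nat.cast_sub (by omega)]; simp
  have goal : (8 : ℝ) * ((D + D + T + k) * ((M - 1 : ℕ) : ℝ) +
      4 * (((K - 1) * (D * (D - 1)) : ℕ) : ℝ)) ≤ ((M - 1 : ℕ) : ℝ) * M := by
    rw [hM1]
    have hxD : (D : ℝ) = x / 64 := by rw [hx]; ring
    rw [hxD]
    have hMm : 0 ≤ (M : ℝ) - 1 := by linarith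
    have h1 : x * ((M : ℝ) - 1) ≤ (3 / 10 * M) * ((M : ℝ) - 1) := by
      apply mul_le_mul_of_nonneg_right _ hMm
      linarith
    have h2 : (T : ℝ) * ((M : ℝ) - 1) ≤ (M / 2048) * ((M : ℝ) - 1) := by
      apply mul_le_mul_of_nonneg_right _ hMm
      linarith
    have h3 : (k : ℝ) * ((M : ℝ) - 1) ≤ (M / 10) * ((M : ℝ) - 1) := by
      apply mul_le_mul_of_nonneg_right _ hMm
      linarith
    nlinarith
  exact_mod_cast goal

variable {V : Type*} [Fintype V] [DecidableEq V]

open Classical in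
/-- Main injection theorem. -/
theorem exists_good_injection (H : SimpleGraph V) (X S : Finset V) (hXS : Disjoint X S)
    (bad : V → V → Prop) (D R : ℕ)
    (hdeg : ∀ w, (univ.filter (fun c => H.Adj w c)).card ≤ D)
    (hbad : ∀ x ∈ X, (S.filter (fun s => bad x s)).card ≤ D)
    (hR : (64 * D) ^ 4 ≤ R ^ 3) (h1 : R ≤ 2 * X.card + S.card) (h2 : 12 * X.card < R) :
    ∃ f : X ↪ S, (∀ x : X, ¬ H.Adj x.1 (f x).1) ∧ (∀ x : X, ¬ bad x.1 (f x).1) ∧
      ∀ x y : X, x ≠ y → ¬ (H.Adj x.1 y.1 ∧ H.Adj x.1 (f y).1 ∧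
        H.Adj (f x).1 y.1 ∧ H.Adj (f x).1 (f y).1) := by
  rcases Nat.eq_zero_or_pos D with hD | hD
  · subst hD
    have hne : Nonempty (X ↪ S) := by
      apply Function.Embedding.nonempty_of_card_le
      rw [Fintype.card_coe, Fintype.card_coe]
      omega
    obtain ⟨f⟩ := hne
    have hH : ∀ x y, ¬ H.Adj x y := by
      intro x y h
      have h2 := Nat.le_zero.1 (hdeg x)
      rw [card_eq_zero] at h2
      have h3 : y ∈ univ.filter (fun c => H.Adj x c) := by simpa using h
      rw [h2] at h3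
      simp at h3
    have hB : ∀ x : X, ∀ s : S, ¬ bad x.1 s.1 := by
      intro x s h
      have h2 := Nat.le_zero.1 (hbad x.1 x.2)
      rw [card_eq_zero] at h2
      have h3 : s.1 ∈ S.filter (fun c => bad x.1 c) := mem_filter.2 ⟨s.2, h⟩
      rw [h2] at h3
      simp at h3
    exact ⟨f, fun x => hH _ _, fun x => hB _ _, fun x y _ h => hH _ _ h.1⟩
  · obtain ⟨hM, hk, K, hK⟩ := numeric_inj S.card X.card D R hD hR h1 h2
    exact exists_injection_raw H X S hXS (by omega) (by omega) bad D D K hdeg hbad hK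

end Vale.Agent.P060
end

section

namespace Vale.Agent.P060

open SimpleGraph

/-- Number of odd components after deletion of `S`. -/
noncomputable def oddDel {V : Type*} (H : SimpleGraph V) (S : Set V) : ℕ :=
  ((⊤ : H.Subgraph).deleteVerts S).coe.oddComponents.ncard

theorem ncard_oddComponents_iso {V W : Type*} {G : SimpleGraph V} {G' : SimpleGraph W}
    (e : G ≃g G') : G.oddComponents.ncard = G'.oddComponents.ncard := by
  have h : G'.oddComponents = e.connectedComponentEquiv '' G.oddComponents := by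
    ext c
    constructor
    · intro hc
      refine ⟨e.connectedComponentEquiv.symm c, ?_, by simp⟩
      have h1 := Nat.card_congr (SimpleGraph.ConnectedComponent.isoEquivSupp e
        (e.connectedComponentEquiv.symm c))
      rw [Equiv.apply_symm_apply] at h1
      change Odd (e.connectedComponentEquiv.symm c).supp.ncard
      rw [← Nat.card_coe_set_eq, h1, Nat.card_coe_set_eq]
      exact hc
    · rintro ⟨c, hc, rfl⟩
      have h1 := Nat.card_congr (SimpleGraph.ConnectedComponent.isoEquivSupp e c)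
      change Odd (e.connectedComponentEquiv c).supp.ncard
      rw [← Nat.card_coe_set_eq, ← h1, Nat.card_coe_set_eq]
      exact hc
  rw [h, Set.ncard_image_of_injective _ e.connectedComponentEquiv.injective]

/-- Join of `H` with a complete graph on `Fin d`. -/
def joinTop {V : Type*} (H : SimpleGraph V) (d : ℕ) : SimpleGraph (V ⊕ Fin d) where
  Adj x y := match x, y with
    | Sum.inl a, Sum.inl b => H.Adj a b
    | Sum.inl _, Sum.inr _ => True
    | Sum.inr _, Sum.inl _ => True
    | Sum.inr i, Sum.inr j => i ≠ j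
  symm := by
    constructor
    rintro (a | i) (b | j) h
    · exact h.symm
    · trivial
    · trivial
    · exact Ne.symm h
  loopless := by
    constructor
    rintro (a | i) h
    · exact H.loopless.irrefl a h
    · exact h rfl

theorem joinTop_inl_inl {V : Type*} (H : SimpleGraph V) (d : ℕ) (a b : V) :
    (joinTop H d).Adj (Sum.inl a) (Sum.inl b) ↔ H.Adj a b := Iff.rfl

theorem joinTop_inr {V : Type*} (H : SimpleGraph V) (d : ℕ) (i : Fin d) (x : V ⊕ Fin d)
    (hx : x ≠ Sum.inr i) : (joinTop H d).Adj (Sum.inr i) x := by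
  rcases x with a | j
  · trivial
  · exact fun h => hx (by rw [h])

theorem oddDel_joinTop {V : Type*} (H : SimpleGraph V) (d : ℕ) (u : Set (V ⊕ Fin d))
    (hu : ∀ i, Sum.inr i ∈ u) : oddDel (joinTop H d) u = oddDel H (Sum.inl ⁻¹' u) := by
  apply ncard_oddComponents_iso
  refine ⟨⟨fun x => ?_, fun x => ⟨Sum.inl x.1, ?_⟩, ?_, ?_⟩, ?_⟩
  · match x with
    | ⟨Sum.inl a, ha⟩ =>
      exact ⟨a, by
        simp only [Subgraph.deleteVerts_verts, Subgraph.verts_top, Set.mem_sdiff, Set.mem_univ,
          true_and] at ha ⊢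
        exact ha⟩
    | ⟨Sum.inr i, hi⟩ =>
      exact absurd (hu i) (by
        simp only [Subgraph.deleteVerts_verts, Subgraph.verts_top, Set.mem_sdiff, Set.mem_univ,
          true_and] at hi
        exact hi)
  · have := x.2
    simp only [Subgraph.deleteVerts_verts, Subgraph.verts_top, Set.mem_sdiff, Set.mem_univ,
      true_and, Set.mem_preimage] at this ⊢
    exact this
  · rintro ⟨a | i, h⟩
    · rfl
    · exfalso
      simp only [Subgraph.deleteVerts_verts, Subgraph.verts_top, Set.mem_sdiff, Set.mem_univ,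
          true_and] at h
      exact h (hu i)
  · rintro ⟨a, h⟩
    rfl
  · rintro ⟨a | i, h⟩ ⟨b | j, h'⟩
    · simp only [Equiv.coe_fn_mk, Subgraph.coe_adj, Subgraph.deleteVerts_adj, Subgraph.verts_top,
        Set.mem_univ, true_and, Subgraph.top_adj, Set.mem_preimage, joinTop_inl_inl]
    · exfalso
      simp only [Subgraph.deleteVerts_verts, Subgraph.verts_top, Set.mem_sdiff, Set.mem_univ,
          true_and] at h'
      exact h' (hu j)
    · exfalso
      simp only [Subgraph.deleteVerts_verts, Subgraph.verts_top, Set.mem_sdiff, Set.mem_univ,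
          true_and] at h
      exact h (hu i)
    · exfalso
      simp only [Subgraph.deleteVerts_verts, Subgraph.verts_top, Set.mem_sdiff, Set.mem_univ,
          true_and] at h
      exact h (hu i)

theorem oddDel_le_one {V : Type*} [Finite V] (H : SimpleGraph V) (d : ℕ) (u : Set (V ⊕ Fin d))
    (i : Fin d) (hi : Sum.inr i ∉ u) : oddDel (joinTop H d) u ≤ 1 := by
  have hpre : ((⊤ : (joinTop H d).Subgraph).deleteVerts u).coe.Preconnected := by
    have key : ∀ x : ((⊤ : (joinTop H d).Subgraph).deleteVerts u).verts,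
        ((⊤ : (joinTop H d).Subgraph).deleteVerts u).coe.Reachable ⟨Sum.inr i, by
          simp only [Subgraph.deleteVerts_verts, Subgraph.verts_top, Set.mem_sdiff, Set.mem_univ,
            true_and]
          exact hi⟩ x := by
      intro x
      by_cases hx : x.1 = Sum.inr i
      · have : x = ⟨Sum.inr i, by
          simp only [Subgraph.deleteVerts_verts, Subgraph.verts_top, Set.mem_sdiff, Set.mem_univ,
            true_and]
          exact hi⟩ := Subtype.ext hx
        rw [this]
      · apply SimpleGraph.Adj.reachable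
        have hx2 := x.2
        simp only [Subgraph.deleteVerts_verts, Subgraph.verts_top, Set.mem_sdiff, Set.mem_univ,
          true_and] at hx2
        simp only [Subgraph.coe_adj, Subgraph.deleteVerts_adj, Subgraph.verts_top,
          Set.mem_univ, true_and, Subgraph.top_adj]
        exact ⟨hi, hx2, joinTop_inr H d i x.1 hx⟩
    intro x y
    exact (key x).symm.trans (key y)
  have hsub := hpre.subsingleton_connectedComponent
  unfold oddDel
  rw [Set.ncard_le_one_iff_subsingleton]
  exact Set.subsingleton_of_subsingleton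

theorem tutte_berge_aux {V : Type*} [Finite V] (H : SimpleGraph V) (d : ℕ)
    (hpar : Even (Nat.card V + d)) (hd : ∀ S : Set V, oddDel H S ≤ S.ncard + d) :
    ∃ M : (joinTop H d).Subgraph, M.IsPerfectMatching := by
  rw [SimpleGraph.tutte]
  intro u hu
  unfold SimpleGraph.IsTutteViolator at hu
  change u.ncard < oddDel (joinTop H d) u at hu
  by_cases hall : ∀ i, Sum.inr i ∈ u
  · rw [oddDel_joinTop H d u hall] at hu
    have h1 := hd (Sum.inl ⁻¹' u)
    have h2 : u = Sum.inl '' (Sum.inl ⁻¹' u) ∪ Set.range (Sum.inr : Fin d → V ⊕ Fin d) := by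
      ext x
      rcases x with a | i
      · simp
      · simp [hall i]
    have h3 : u.ncard = (Sum.inl ⁻¹' u : Set V).ncard + d := by
      conv_lhs => rw [h2]
      rw [Set.ncard_union_eq (by
        rw [Set.disjoint_left]
        rintro _ ⟨a, _, rfl⟩ ⟨i, hi⟩
        exact Sum.inr_ne_inl hi) (Set.toFinite _) (Set.toFinite _),
        Set.ncard_image_of_injective _ Sum.inl_injective, ← Set.image_univ,
        Set.ncard_image_of_injective _ Sum.inr_injective, Set.ncard_univ, Nat.card_fin]
    omega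
  · push Not at hall
    obtain ⟨i, hi⟩ := hall
    have h1 := oddDel_le_one H d u i hi
    have hu0 : u.ncard = 0 := by omega
    have hodd : oddDel (joinTop H d) u = 1 := by omega
    have huem : u = ∅ := (Set.ncard_eq_zero (Set.toFinite u)).1 hu0
    subst huem
    have h2 := SimpleGraph.odd_ncard_oddComponents
      (G := ((⊤ : (joinTop H d).Subgraph).deleteVerts ∅).coe)
    change Odd (oddDel (joinTop H d) ∅) ↔ _ at h2
    rw [hodd] at h2
    have h3 := h2.1 (by decide)
    have h4 : Nat.card ((⊤ : (joinTop H d).Subgraph).deleteVerts ∅).verts =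
        Nat.card V + d := by
      rw [Subgraph.deleteVerts_verts, Subgraph.verts_top, Set.sdiff_empty]
      rw [Nat.card_coe_set_eq, Set.ncard_univ, Nat.card_sum, Nat.card_fin]
    rw [h4] at h3
    exact (Nat.not_odd_iff_even.2 hpar) h3

open Finset in
theorem colorable_of_perfect {V : Type*} [Fintype V] (H : SimpleGraph V) (d : ℕ)
    (M : (joinTop H d).Subgraph) (hM : M.IsPerfectMatching) :
    ∃ c : ℕ, 2 * c = Fintype.card V + d ∧ Hᶜ.Colorable c := by
  classical
  rw [Subgraph.isPerfectMatching_iff] at hM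
  choose τ hτ hτu using hM
  simp only at hτ hτu
  have hττ : ∀ x, τ (τ x) = x := fun x => (hτu (τ x) x (hτ x).symm).symm
  have hτne : ∀ x, τ x ≠ x := fun x h => by
    have h1 := hτ x
    rw [h] at h1
    exact (M.adj_sub h1).ne rfl
  set c : V ⊕ Fin d → Sym2 (V ⊕ Fin d) := fun x => s(x, τ x) with hc
  have hcc : ∀ x y, c x = c y ↔ x = y ∨ x = τ y := by
    intro x y
    simp only [hc, Sym2.eq_iff]
    constructor
    · rintro (⟨h, _⟩ | ⟨h, _⟩)
      · exact Or.inl h
      · exact Or.inr h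
    · rintro (h | h)
      · exact Or.inl ⟨h, by rw [h]⟩
      · exact Or.inr ⟨h, by rw [h, hττ]⟩
  set I : Finset (Sym2 (V ⊕ Fin d)) := univ.image c with hI
  have hcount : 2 * I.card = Fintype.card V + d := by
    have h1 : (univ : Finset (V ⊕ Fin d)).card = ∑ e ∈ I, (univ.filter (fun x => c x = e)).card :=
      card_eq_sum_card_fiberwise (fun x _ => by
        rw [hI]; exact mem_coe.2 (mem_image_of_mem c (mem_univ x)))
    have h2 : ∀ e ∈ I, (univ.filter (fun x => c x = e)).card = 2 := by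
      intro e he
      obtain ⟨y, _, rfl⟩ := mem_image.1 he
      have h3 : univ.filter (fun x => c x = c y) = {y, τ y} := by
        ext x
        simp only [mem_filter, mem_univ, true_and, mem_insert, mem_singleton, hcc]
      rw [h3, card_pair (hτne y).symm]
    rw [sum_congr rfl h2, sum_const, smul_eq_mul, card_univ, Fintype.card_sum, Fintype.card_fin]
      at h1
    omega
  refine ⟨I.card, hcount, ?_⟩
  let C : Hᶜ.Coloring I := SimpleGraph.Coloring.mk
    (fun v => ⟨c (Sum.inl v), mem_image_of_mem c (mem_univ _)⟩) (by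
      intro a b hab heq
      rw [Subtype.mk.injEq, hcc] at heq
      rw [SimpleGraph.compl_adj] at hab
      rcases heq with h | h
      · exact hab.1 (Sum.inl_injective h)
      · have h2 := M.adj_sub (hτ (Sum.inl b))
        rw [← h] at h2
        exact hab.2 (((joinTop_inl_inl H d b a).1 h2).symm))
  have := C.colorable
  rwa [Fintype.card_coe] at this

open Finset in
/-- Tutte-Berge type partition. -/
theorem exists_partition {V : Type*} [Fintype V] [DecidableEq V] (H : SimpleGraph V) :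
    ∃ S Q W : Finset V, Disjoint W S ∧ Disjoint W Q ∧ Disjoint S Q ∧
      W.card + S.card + Q.card = Fintype.card V ∧ S.card ≤ Q.card ∧
      (∀ p ∈ Q, ∀ q ∈ Q, p ≠ q → Hᶜ.Adj p q) ∧
      (∀ w ∈ W, ∀ p ∈ Q, ∀ q ∈ Q, H.Adj w p → H.Adj w q → p = q) ∧
      Even W.card ∧ Hᶜ.Colorable (Q.card + W.card / 2) := by
  classical
  obtain ⟨S, hS⟩ := Finite.exists_max (fun S : Set V => (oddDel H S : ℤ) - S.ncard)
  have hS0 : S.ncard ≤ oddDel H S := by
    have h := hS ∅
    rw [Set.ncard_empty] at h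
    omega
  obtain ⟨d, hd⟩ : ∃ d, oddDel H S = S.ncard + d := ⟨oddDel H S - S.ncard, by omega⟩
  have hmax : ∀ T : Set V, oddDel H T ≤ T.ncard + d := by
    intro T
    have h := hS T
    omega
  set K := ((⊤ : H.Subgraph).deleteVerts S).coe with hK
  have hverts : ∀ v, v ∈ ((⊤ : H.Subgraph).deleteVerts S).verts ↔ v ∉ S := by
    intro v
    simp only [Subgraph.deleteVerts_verts, Subgraph.verts_top, Set.mem_sdiff, Set.mem_univ,
      true_and]
  have hcardK : Nat.card ((⊤ : H.Subgraph).deleteVerts S).verts + S.ncard = Nat.card V := by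
    rw [Subgraph.deleteVerts_verts, Subgraph.verts_top, Nat.card_coe_set_eq, ← Set.ncard_univ]
    exact Set.ncard_sdiff_add_ncard_of_subset (Set.subset_univ S) (Set.toFinite _)
  have hparK := SimpleGraph.odd_ncard_oddComponents (G := K)
  change Odd (oddDel H S) ↔ _ at hparK
  have hpar : Even (Nat.card V + d) := by
    rw [← Nat.not_odd_iff_even]
    intro hodd
    rcases Nat.even_or_odd (oddDel H S) with h | h
    · have h1 : ¬ Odd (Nat.card ((⊤ : H.Subgraph).deleteVerts S).verts) := fun h2 =>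
        (Nat.not_odd_iff_even.2 h) (hparK.2 h2)
      rw [Nat.not_odd_iff_even] at h1
      rw [hd] at h
      obtain ⟨a, ha⟩ := h
      obtain ⟨b, hb⟩ := h1
      obtain ⟨c, hc⟩ := hodd
      omega
    · have h1 := hparK.1 h
      rw [hd] at h
      obtain ⟨a, ha⟩ := h
      obtain ⟨b, hb⟩ := h1
      obtain ⟨c, hc⟩ := hodd
      omega
  obtain ⟨M, hM⟩ := tutte_berge_aux H d hpar hmax
  obtain ⟨c, hc2, hcol⟩ := colorable_of_perfect H d M hM
  -- representatives
  have hrep : ∀ C : K.oddComponents, ∃ v : ((⊤ : H.Subgraph).deleteVerts S).verts,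
      K.connectedComponentMk v = C.1 := fun C => C.1.exists_rep
  choose rep hrep' using hrep
  have hfin : Fintype K.oddComponents := Fintype.ofFinite _
  set Q : Finset V := univ.image (fun C : K.oddComponents => (rep C).1) with hQ
  have hinj : Function.Injective (fun C : K.oddComponents => (rep C).1) := by
    intro C C' h
    have h1 : rep C = rep C' := Subtype.ext h
    apply Subtype.ext
    rw [← hrep' C, ← hrep' C', h1]
  have hQcard : Q.card = oddDel H S := by
    rw [hQ, card_image_of_injective _ hinj, card_univ]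
    unfold oddDel
    rw [← Nat.card_coe_set_eq, Nat.card_eq_fintype_card]
  set S' : Finset V := S.toFinset with hS'
  have hS'card : S'.card = S.ncard := by
    rw [hS', Set.ncard_eq_toFinset_card']
  have hmemS' : ∀ v, v ∈ S' ↔ v ∈ S := fun v => by rw [hS', Set.mem_toFinset]
  have hQS : ∀ v ∈ Q, v ∉ S := by
    intro v hv
    obtain ⟨C, _, rfl⟩ := mem_image.1 hv
    exact (hverts _).1 (rep C).2
  have hSQ : Disjoint S' Q := by
    rw [Finset.disjoint_left]
    intro v hv hv'
    exact hQS v hv' ((hmemS' v).1 hv)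
  set W : Finset V := univ \ (S' ∪ Q) with hW
  have hWcard : W.card + S'.card + Q.card = Fintype.card V := by
    have h1 := card_sdiff_add_card_eq_card (subset_univ (S' ∪ Q))
    rw [card_union_of_disjoint hSQ, card_univ] at h1
    rw [hW]
    omega
  have hcomp : ∀ (a b : V) (ha : a ∉ S) (hb : b ∉ S), H.Adj a b →
      K.connectedComponentMk ⟨a, (hverts a).2 ha⟩ = K.connectedComponentMk ⟨b, (hverts b).2 hb⟩ := by
    intro a b ha hb hab
    rw [ConnectedComponent.eq]
    apply SimpleGraph.Adj.reachable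
    rw [hK]
    simp only [Subgraph.coe_adj, Subgraph.deleteVerts_adj, Subgraph.verts_top,
      Set.mem_univ, true_and, Subgraph.top_adj]
    exact ⟨ha, hb, hab⟩
  have hQrep : ∀ p ∈ Q, ∀ q ∈ Q, ∀ (hp : p ∉ S) (hq : q ∉ S),
      K.connectedComponentMk ⟨p, (hverts p).2 hp⟩ = K.connectedComponentMk ⟨q, (hverts q).2 hq⟩ →
      p = q := by
    intro p hp q hq hpS hqS h
    obtain ⟨C, _, rfl⟩ := mem_image.1 hp
    obtain ⟨C', _, rfl⟩ := mem_image.1 hq
    have h1 := hrep' C
    have h2 := hrep' C'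
    have h3 : C.1 = C'.1 := by rw [← h1, ← h2]; exact h
    rw [Subtype.ext h3]
  refine ⟨S', Q, W, ?_, ?_, hSQ, hWcard, by rw [hS'card, hQcard]; exact hS0, ?_, ?_, ?_, ?_⟩
  · rw [Finset.disjoint_left]
    intro v hv hv'
    rw [hW, mem_sdiff] at hv
    exact hv.2 (mem_union_left _ hv')
  · rw [Finset.disjoint_left]
    intro v hv hv'
    rw [hW, mem_sdiff] at hv
    exact hv.2 (mem_union_right _ hv')
  · intro p hp q hq hpq
    rw [SimpleGraph.compl_adj]
    refine ⟨hpq, fun hadj => hpq ?_⟩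
    exact hQrep p hp q hq (hQS p hp) (hQS q hq) (hcomp p q (hQS p hp) (hQS q hq) hadj)
  · intro w hw p hp q hq hwp hwq
    have hwS : w ∉ S := by
      rw [hW, mem_sdiff, mem_union, not_or, hmemS'] at hw
      exact hw.2.1
    refine hQrep p hp q hq (hQS p hp) (hQS q hq) ?_
    rw [← hcomp w p hwS (hQS p hp) hwp, hcomp w q hwS (hQS q hq) hwq]
  · rw [Nat.even_iff]
    rw [Nat.even_iff] at hpar
    rw [Nat.card_eq_fintype_card] at hpar
    omega
  · have hcW : c = Q.card + W.card / 2 := by
      rw [Nat.even_iff, Nat.card_eq_fintype_card] at hpar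
      omega
    rw [← hcW]
    exact hcol

end Vale.Agent.P060
end

section

namespace Vale.Agent.P060

open Finset

variable {W : Type*} {m : ℕ} [Fintype W] [DecidableEq W]

section
open Classical

/-- Half of the conflict triples: those with `f c < f d`. -/
theorem confl_half (H : SimpleGraph W) (D K : ℕ)
    (hdeg : ∀ w, (univ.filter (fun c => H.Adj w c)).card ≤ D) (v : W) (f : W → ℕ) :
    2 * ((confl H K v).filter (fun y => f y.2.1 < f y.2.2)).card ≤ (K - 1) * (D * (D - 1)) := by
  have h1 : ((confl H K v).filter (fun y => f y.2.1 < f y.2.2)).card ≤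
      ((confl H K v).filter (fun y => ¬ f y.2.1 < f y.2.2)).card := by
    apply card_le_card_of_injOn (fun y => (y.1, y.2.2, y.2.1))
    · rintro ⟨b, c, d⟩ hx
      simp only [coe_filter, Set.mem_ofPred_eq] at hx ⊢
      obtain ⟨hx, hlt⟩ := hx
      refine ⟨?_, by omega⟩
      simp only [confl, mem_biUnion, mem_image, mem_offDiag, Prod.mk.injEq] at hx ⊢
      obtain ⟨b', hb', ⟨c', d'⟩, ⟨hc, hd, hne⟩, rfl, rfl, rfl⟩ := hx
      exact ⟨b', hb', ⟨d', c'⟩, ⟨hd, hc, fun h => hne h.symm⟩, rfl, rfl, rfl⟩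
    · rintro ⟨b, c, d⟩ _ ⟨b', c', d'⟩ _ h
      simp only [Prod.mk.injEq] at h
      rw [h.1, h.2.1, h.2.2]
  have h2 := card_filter_add_card_filter_not (s := confl H K v) (fun y => f y.2.1 < f y.2.2)
  have h3 := confl_card H D K hdeg v
  omega

/-- Main pairing theorem, raw numerical form, with canonical indexing of the conflicts. -/
theorem exists_pairing_canon (hm : 2 ≤ m) (hW : Fintype.card W = 2 * m) (H : SimpleGraph W)
    (bad : W → W → Prop) (hsymm : ∀ a b, bad a b → bad b a) (D B K : ℕ)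
    (hdeg : ∀ w, (univ.filter (fun c => H.Adj w c)).card ≤ D)
    (hbad : ∀ w, (univ.filter (fun c => bad w c)).card ≤ B)
    (hnum : 8 * (2 * (D + B + D * (D - 1) / (K + 1)) * (2 * m - 3) +
      (K - 1) * (D * (D - 1))) ≤ (2 * m - 3) * (2 * m - 1)) :
    ∃ e : Fin m × Bool ≃ W, (∀ x, ¬ H.Adj x (partner e x)) ∧ (∀ x, ¬ bad x (partner e x)) ∧
      ∀ x y, y ≠ x → y ≠ partner e x → ¬ (H.Adj x y ∧ H.Adj x (partner e y) ∧
        H.Adj (partner e x) y ∧ H.Adj (partner e x) (partner e y)) := by
  set f : W → ℕ := fun x => (Fintype.equivFin W x).val with hf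
  have hfinj : ∀ x y, f x = f y → x = y := by
    intro x y h
    exact (Fintype.equivFin W).injective (Fin.ext h)
  set bp : W → W → Prop := fun a b => H.Adj a b ∨ bad a b ∨ K < (common H a b).card with hbp
  have bpsymm : ∀ a b, bp a b → bp b a := by
    rintro a b (h | h | h)
    · exact Or.inl h.symm
    · exact Or.inr (Or.inl (hsymm _ _ h))
    · exact Or.inr (Or.inr (by rwa [common_comm]))
  set E2 : Finset (W × W) := univ.filter (fun x => f x.1 < f x.2 ∧ bp x.1 x.2) with hE2
  set E4 : Finset (W × W × W × W) := univ.filter (fun x =>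
    (H.Adj x.1 x.2.2.1 ∧ H.Adj x.1 x.2.2.2 ∧ H.Adj x.2.1 x.2.2.1 ∧ H.Adj x.2.1 x.2.2.2) ∧
    (f x.1 < f x.2.1 ∧ f x.2.2.1 < f x.2.2.2 ∧ f x.1 < f x.2.2.1) ∧
    (common H x.1 x.2.1).card ≤ K ∧
    (common H x.2.2.1 x.2.2.2).card ≤ K) with hE4
  have hcount : ∀ v : W, 16 * ((E2.filter (fun x => v = x.1 ∨ v = x.2)).card * (2 * m - 3) +
      (E4.filter (fun x => v = x.1 ∨ v = x.2.1 ∨ v = x.2.2.1 ∨ v = x.2.2.2)).card) ≤
      (2 * m - 3) * (2 * m - 1) := by
    intro v
    have hhigh := high_card H D K hdeg v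
    have h2 : (E2.filter (fun x => v = x.1 ∨ v = x.2)).card ≤
        D + B + D * (D - 1) / (K + 1) := by
      have hsub : E2.filter (fun x => v = x.1 ∨ v = x.2) ⊆
          ((univ.filter (fun c => H.Adj v c) ∪ univ.filter (fun c => bad v c)) ∪
            (univ.erase v).filter (fun b => K < (common H v b).card)).image
            (fun w => if f v < f w then (v, w) else (w, v)) := by
        rintro ⟨a, b⟩ hx
        simp only [hE2, mem_filter, mem_univ, true_and] at hx
        obtain ⟨⟨hlt, hb⟩, hv⟩ := hx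
        have hbp' : ∀ w, w ≠ v → bp v w → w ∈ ((univ.filter (fun c => H.Adj v c) ∪
            univ.filter (fun c => bad v c)) ∪
            (univ.erase v).filter (fun b => K < (common H v b).card)) := by
          intro w hw hb
          simp only [mem_union, mem_filter, mem_univ, true_and, mem_erase, and_true]
          rcases hb with h | h | h
          · exact Or.inl (Or.inl h)
          · exact Or.inl (Or.inr h)
          · exact Or.inr ⟨hw, h⟩
        rcases hv with rfl | rfl
        · refine mem_image.2 ⟨b, hbp' b ?_ hb, by rw [if_pos hlt]⟩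
          rintro rfl
          exact lt_irrefl _ hlt
        · refine mem_image.2 ⟨a, hbp' a ?_ (bpsymm _ _ hb), by rw [if_neg (by omega)]⟩
          rintro rfl
          exact lt_irrefl _ hlt
      calc _ ≤ _ := card_le_card hsub
        _ ≤ _ := card_image_le
        _ ≤ _ := card_union_le _ _
        _ ≤ (D + B) + D * (D - 1) / (K + 1) := by
            apply Nat.add_le_add _ hhigh
            exact (card_union_le _ _).trans (Nat.add_le_add (hdeg v) (hbad v))
    have h4 : 2 * (E4.filter (fun x => v = x.1 ∨ v = x.2.1 ∨ v = x.2.2.1 ∨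
        v = x.2.2.2)).card ≤ (K - 1) * (D * (D - 1)) := by
      refine le_trans ?_ (confl_half H D K hdeg v f)
      apply Nat.mul_le_mul_left
      have hsub : E4.filter (fun x => v = x.1 ∨ v = x.2.1 ∨ v = x.2.2.1 ∨ v = x.2.2.2) ⊆
          ((confl H K v).filter (fun y => f y.2.1 < f y.2.2)).image
            (fun y => if f v < f y.1 then
              (if f v < f y.2.1 then (v, y.1, y.2.1, y.2.2) else (y.2.1, y.2.2, v, y.1)) else
              (if f y.1 < f y.2.1 then (y.1, v, y.2.1, y.2.2) else (y.2.1, y.2.2, y.1, v))) := by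
        rintro ⟨a, b, c, d⟩ hx
        simp only [hE4, mem_filter, mem_univ, true_and] at hx
        obtain ⟨⟨⟨hac, had, hbc, hbd⟩, ⟨hab, hcd, hac'⟩, hk1, hk2⟩, hv⟩ := hx
        have nab : a ≠ b := fun h => by rw [h] at hab; exact lt_irrefl _ hab
        have ncd : c ≠ d := fun h => by rw [h] at hcd; exact lt_irrefl _ hcd
        rcases hv with rfl | rfl | rfl | rfl
        · refine mem_image.2 ⟨(b, c, d), mem_filter.2
            ⟨mem_confl H K hac had hbc hbd nab.symm ncd hk1, hcd⟩, ?_⟩
          simp only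
          rw [if_pos hab, if_pos hac']
        · refine mem_image.2 ⟨(a, c, d), mem_filter.2
            ⟨mem_confl H K hbc hbd hac had nab ncd (by rwa [common_comm]), hcd⟩, ?_⟩
          simp only
          rw [if_neg (by omega), if_pos hac']
        · refine mem_image.2 ⟨(d, a, b), mem_filter.2
            ⟨mem_confl H K hac.symm hbc.symm had.symm hbd.symm ncd.symm nab hk2, hab⟩, ?_⟩
          simp only
          rw [if_pos hcd, if_neg (by omega)]
        · refine mem_image.2 ⟨(c, a, b), mem_filter.2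
            ⟨mem_confl H K had.symm hbd.symm hac.symm hbc.symm ncd nab
              (by rwa [common_comm]), hab⟩, ?_⟩
          simp only
          rw [if_neg (by omega), if_neg (by omega)]
      exact (card_le_card hsub).trans card_image_le
    refine le_trans ?_ hnum
    have h5 := Nat.mul_le_mul_right (2 * m - 3) h2
    have h6 : 8 * (2 * (D + B + D * (D - 1) / (K + 1)) * (2 * m - 3) + (K - 1) * (D * (D - 1)))
      = 16 * ((D + B + D * (D - 1) / (K + 1)) * (2 * m - 3)) + 8 * ((K - 1) * (D * (D - 1))) := by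
      ring
    rw [h6]
    omega
  obtain ⟨e, he2, he4⟩ := exists_avoiding hm hW E2 E4 (by
    rintro ⟨a, b, c, d⟩ hx
    simp only [hE4, mem_filter, mem_univ, true_and] at hx
    obtain ⟨⟨hac, had, hbc, hbd⟩, ⟨hab, hcd, hac'⟩, -, -⟩ := hx
    have hcd' : c ≠ d := fun h => by rw [h] at hcd; exact lt_irrefl _ hcd
    exact ⟨hac.ne, had.ne, hbc.ne, hbd.ne, hcd'⟩) (by
      intro v
      convert hcount v)
  have hbpe : ∀ x, ¬ bp x (partner e x) := by
    intro x hb
    rcases lt_trichotomy (f x) (f (partner e x)) with h | h | h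
    · exact he2 (x, partner e x) (by
        simp only [hE2, mem_filter, mem_univ, true_and]; exact ⟨h, hb⟩) rfl
    · exact partner_ne e x (hfinj _ _ h).symm
    · exact he2 (partner e x, x) (by
        simp only [hE2, mem_filter, mem_univ, true_and]; exact ⟨h, bpsymm _ _ hb⟩)
        (partner_partner e x)
  refine ⟨e, fun x h => hbpe x (Or.inl h), fun x h => hbpe x (Or.inr (Or.inl h)), ?_⟩
  have hk : ∀ x, (common H x (partner e x)).card ≤ K := by
    intro x
    by_contra hcon
    exact hbpe x (Or.inr (Or.inr (not_le.1 hcon)))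
  -- a conflict whose two pairs are sorted
  have core : ∀ a b c d, partner e a = b → partner e c = d → H.Adj a c → H.Adj a d →
      H.Adj b c → H.Adj b d → f a < f b → f c < f d → False := by
    intro a b c d hab hcd h1 h2 h3 h4 hlt1 hlt2
    rcases lt_trichotomy (f a) (f c) with h | h | h
    · refine he4 (a, b, c, d) ?_ ⟨hab, hcd⟩
      simp only [hE4, mem_filter, mem_univ, true_and]
      exact ⟨⟨h1, h2, h3, h4⟩, ⟨hlt1, hlt2, h⟩, hab ▸ hk a, hcd ▸ hk c⟩
    · exact h1.ne (hfinj _ _ h)
    · refine he4 (c, d, a, b) ?_ ⟨hcd, hab⟩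
      simp only [hE4, mem_filter, mem_univ, true_and]
      exact ⟨⟨h1.symm, h3.symm, h2.symm, h4.symm⟩, ⟨hlt2, hlt1, h⟩, hcd ▸ hk c, hab ▸ hk a⟩
  rintro x y hyx hyp ⟨h1, h2, h3, h4⟩
  have hx' : f x ≠ f (partner e x) := fun h => partner_ne e x (hfinj _ _ h).symm
  have hy' : f y ≠ f (partner e y) := fun h => partner_ne e y (hfinj _ _ h).symm
  have px := partner_partner e x
  have py := partner_partner e y
  rcases lt_or_gt_of_ne hx' with hx | hx <;> rcases lt_or_gt_of_ne hy' with hy | hy
  · exact core _ _ _ _ rfl rfl h1 h2 h3 h4 hx hy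
  · exact core _ _ _ _ rfl py h2 h1 h4 h3 hx hy
  · exact core _ _ _ _ px rfl h3 h4 h1 h2 hx hy
  · exact core _ _ _ _ px py h4 h3 h2 h1 hx hy

end

end Vale.Agent.P060
end

section

namespace Vale.Agent.P060

open Finset

/-- Numerical part of the case of independence number two. -/
theorem numeric_alpha (m w n : ℕ) (hw : 1 ≤ w) (h1 : 4096 * w ^ 4 ≤ n ^ 3)
    (h2 : n ≤ w * (w + 1)) (h3 : n ≤ 2 * m + 2 * w) :
    2 ≤ m ∧ ∃ K : ℕ, 8 * (2 * (w + w + w * (w - 1) / (K + 1)) * (2 * m - 3) +
      (K - 1) * (w * (w - 1))) ≤ (2 * m - 3) * (2 * m - 1) := by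
  have hw63 : 63 ≤ w := by
    by_contra hcon
    push Not at hcon
    have e1 : n ^ 3 ≤ (w * (w + 1)) ^ 3 := Nat.pow_le_pow_left h2 3
    have e2 : 4096 * w ^ 4 ≤ (w * (w + 1)) ^ 3 := h1.trans e1
    have e3 : 4096 * w * w ^ 3 ≤ (w + 1) ^ 3 * w ^ 3 := by
      calc 4096 * w * w ^ 3 = 4096 * w ^ 4 := by ring
        _ ≤ _ := e2
        _ = _ := by ring
    have e4 : 4096 * w ≤ (w + 1) ^ 3 := Nat.le_of_mul_le_mul_right e3 (by positivity)
    interval_cases w <;> omega
  have hn63 : 636 * w ≤ 10 * n := by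
    by_contra hcon
    push Not at hcon
    have e1 : (10 * n) ^ 3 < (636 * w) ^ 3 := Nat.pow_lt_pow_left hcon (by norm_num)
    have e2 : 63 * w ^ 3 ≤ w * w ^ 3 := Nat.mul_le_mul_right _ hw63
    have e3 : w * w ^ 3 = w ^ 4 := by ring
    have e4 : (10 * n) ^ 3 = 1000 * n ^ 3 := by ring
    have e5 : (636 * w) ^ 3 = 257259456 * w ^ 3 := by ring
    omega
  have hNw : 616 * w ≤ 10 * (2 * m) := by omega
  have hm : 2 ≤ m := by omega
  refine ⟨hm, ?_⟩
  obtain ⟨k, rfl⟩ : ∃ k, m = k + 2 := ⟨m - 2, by omega⟩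
  have e1 : 2 * (k + 2) - 3 = 2 * k + 1 := by omega
  have e2 : 2 * (k + 2) - 1 = 2 * k + 3 := by omega
  rw [e1, e2]
  set N : ℝ := 2 * (k + 2) with hNdef
  have hN3880 : (3880 : ℝ) ≤ N := by
    have : ((3880 : ℕ) : ℝ) ≤ ((2 * (k + 2) : ℕ) : ℝ) := by
      have : 3880 ≤ 2 * (k + 2) := by omega
      exact_mod_cast this
    push_cast at this
    simpa [hNdef] using this
  have hN0 : 0 < N := by linarith
  have hwN : 616 * (w : ℝ) ≤ 10 * N := by
    have : ((616 * w : ℕ) : ℝ) ≤ ((10 * (2 * (k + 2)) : ℕ) : ℝ) := by exact_mod_cast hNw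
    push_cast at this
    simpa [hNdef] using this
  have hw0 : (0 : ℝ) ≤ w := Nat.cast_nonneg _
  have hnN : (n : ℝ) ≤ N + 2 * w := by
    have : ((n : ℕ) : ℝ) ≤ ((2 * (k + 2) + 2 * w : ℕ) : ℝ) := by exact_mod_cast h3
    push_cast at this
    simpa [hNdef] using this
  have hnN2 : (n : ℝ) ≤ 1.0325 * N := by linarith
  have hw4 : 4096 * (w : ℝ) ^ 4 ≤ (n : ℝ) ^ 3 := by exact_mod_cast h1
  have hw4N : (w : ℝ) ^ 4 ≤ 0.000271 * N ^ 3 := by
    have h3 : (n : ℝ) ^ 3 ≤ (1.0325 * N) ^ 3 := pow_le_pow_left₀ (Nat.cast_nonneg _) hnN2 3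
    have h4 : (1.0325 * N) ^ 3 = 1.100703078125 * N ^ 3 := by norm_num; ring
    have h5 : 0 < N ^ 3 := by positivity
    nlinarith
  set r : ℝ := Real.sqrt N with hr
  have hr2 : r ^ 2 = N := Real.sq_sqrt hN0.le
  have hr0 : 0 < r := Real.sqrt_pos.2 hN0
  have hw2r : (w : ℝ) ^ 2 ≤ 0.0165 * r ^ 3 := by
    by_contra hcon
    push Not at hcon
    have h1 : (0.0165 * r ^ 3) ^ 2 < ((w : ℝ) ^ 2) ^ 2 :=
      pow_lt_pow_left₀ hcon (by positivity) (by norm_num)
    have h2 : (0.0165 * r ^ 3) ^ 2 = 0.00027225 * N ^ 3 := by rw [← hr2]; ring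
    have h3 : ((w : ℝ) ^ 2) ^ 2 = (w : ℝ) ^ 4 := by ring
    have h5 : 0 < N ^ 3 := by positivity
    rw [h2, h3] at h1
    linarith
  refine ⟨⌊r⌋₊, ?_⟩
  set K := ⌊r⌋₊ with hK
  have hK1 : (K : ℝ) ≤ r := Nat.floor_le hr0.le
  have hK2 : r < (K : ℝ) + 1 := Nat.lt_floor_add_one r
  have hDD : ((w * (w - 1) : ℕ) : ℝ) ≤ (w : ℝ) ^ 2 := by
    have : w * (w - 1) ≤ w ^ 2 := by
      rw [sq]; exact Nat.mul_le_mul_left _ (Nat.sub_le _ _)
    exact_mod_cast this
  set T := w * (w - 1) / (K + 1) with hT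
  have hT1 : (T : ℝ) * (K + 1) ≤ (w : ℝ) ^ 2 := by
    have : T * (K + 1) ≤ w * (w - 1) := Nat.div_mul_le_self _ _
    have h' : ((T * (K + 1) : ℕ) : ℝ) ≤ ((w * (w - 1) : ℕ) : ℝ) := by exact_mod_cast this
    push_cast at h'
    push_cast at hDD
    linarith
  have hT0 : (0 : ℝ) ≤ T := Nat.cast_nonneg _
  have hTr : (T : ℝ) ≤ 0.0165 * N := by
    have h1 : (T : ℝ) * r ≤ (T : ℝ) * (K + 1) := mul_le_mul_of_nonneg_left hK2.le hT0
    have h2 : (T : ℝ) * r ≤ (0.0165 * r ^ 2) * r := by nlinarith
    have h3 : (T : ℝ) ≤ 0.0165 * r ^ 2 := le_of_mul_le_mul_right h2 hr0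
    rwa [hr2] at h3
  have hKD : (((K - 1) * (w * (w - 1)) : ℕ) : ℝ) ≤ 0.0165 * N ^ 2 := by
    have h1 : ((K - 1 : ℕ) : ℝ) ≤ r := by
      have : ((K - 1 : ℕ) : ℝ) ≤ (K : ℝ) := by exact_mod_cast Nat.sub_le _ _
      linarith
    have h2 : (((K - 1) * (w * (w - 1)) : ℕ) : ℝ) ≤ r * (w : ℝ) ^ 2 := by
      rw [Nat.cast_mul]
      exact mul_le_mul h1 hDD (Nat.cast_nonneg _) hr0.le
    have h3 : r * ((w : ℝ) ^ 2) ≤ r * (0.0165 * r ^ 3) := mul_le_mul_of_nonneg_left hw2r hr0.le
    have h4 : r * (0.0165 * r ^ 3) = 0.0165 * N ^ 2 := by rw [← hr2]; ring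
    linarith
  have goal : (8 : ℝ) * (2 * (w + w + T) * (2 * k + 1) +
      (((K - 1) * (w * (w - 1)) : ℕ) : ℝ)) ≤ (2 * k + 1) * (2 * k + 3) := by
    have ek : (2 * (k : ℝ)) = N - 4 := by rw [hNdef]; ring
    rw [ek]
    have hN3 : 0 ≤ N - 3 := by linarith
    have h1 : (w : ℝ) * (N - 3) ≤ (10 / 616 * N) * (N - 3) := by
      apply mul_le_mul_of_nonneg_right _ hN3
      linarith
    have h2 : (T : ℝ) * (N - 3) ≤ (0.0165 * N) * (N - 3) :=
      mul_le_mul_of_nonneg_right hTr hN3
    nlinarith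
  exact_mod_cast goal

end Vale.Agent.P060
end
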