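import Vale.Agent.P060.Defs
import Vale.Agent.P060.Bdl.B1

set_option linter.all false

section

namespace Vale.Agent.P060

open Finset

theorem HasCliqueMinor.of_index {V ι : Type*} [Fintype ι] (G : SimpleGraph V) (B : ι → Set V)
    (h1 : ∀ i, (B i).Nonempty ∧ (G.induce (B i)).Connected)
    (h2 : ∀ i j, i ≠ j → Disjoint (B i) (B j) ∧ ∃ x ∈ B i, ∃ y ∈ B j, G.Adj x y) :
    HasCliqueMinor G (Fintype.card ι) :=
  ⟨fun i => B ((Fintype.equivFin ι).symm i), fun _ => h1 _,
    fun _ _ hij => h2 _ _ (fun h => hij ((Fintype.equivFin ι).symm.injective h))⟩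

theorem induce_singleton_connected {V : Type*} (G : SimpleGraph V) (v : V) :
    (G.induce ({v} : Set V)).Connected := by
  have : Subsingleton ({v} : Set V) := by
    refine ⟨fun a b => Subtype.ext ?_⟩
    rw [a.2, b.2]
  have : Nonempty ({v} : Set V) := ⟨⟨v, rfl⟩⟩
  exact ⟨SimpleGraph.Preconnected.of_subsingleton⟩

theorem minor_builder {V ι : Type*} [DecidableEq V] [Fintype ι] (G : SimpleGraph V)
    (Q : Finset V) (hQ : ∀ p ∈ Q, ∀ q ∈ Q, p ≠ q → G.Adj p q) (a b : ι → V)
    (ha : Function.Injective a) (hb : Function.Injective b) (hab : ∀ i j, a i ≠ b j)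
    (haQ : ∀ i, a i ∉ Q) (hbQ : ∀ i, b i ∉ Q) (hadj : ∀ i, G.Adj (a i) (b i))
    (hq : ∀ i, ∀ q ∈ Q, ¬ (Gᶜ.Adj (a i) q ∧ Gᶜ.Adj (b i) q))
    (hc : ∀ i j, i ≠ j → ¬ (Gᶜ.Adj (a i) (a j) ∧ Gᶜ.Adj (a i) (b j) ∧ Gᶜ.Adj (b i) (a j) ∧
      Gᶜ.Adj (b i) (b j))) :
    HasCliqueMinor G (Q.card + Fintype.card ι) := by
  have hcard : Fintype.card (Q ⊕ ι) = Q.card + Fintype.card ι := by
    rw [Fintype.card_sum, Fintype.card_coe]
  rw [← hcard]
  have key : ∀ i, ∀ q ∈ Q, ∃ y ∈ ({a i, b i} : Set V), G.Adj q y := by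
    intro i q hqQ
    have h := hq i q hqQ
    rw [not_and_or] at h
    rcases h with h | h
    · refine ⟨a i, by simp, ?_⟩
      rw [SimpleGraph.compl_adj, not_and_or, not_not, not_not] at h
      rcases h with h | h
      · exact absurd (h ▸ hqQ) (haQ i)
      · exact h.symm
    · refine ⟨b i, by simp, ?_⟩
      rw [SimpleGraph.compl_adj, not_and_or, not_not, not_not] at h
      rcases h with h | h
      · exact absurd (h ▸ hqQ) (hbQ i)
      · exact h.symm
  have key2 : ∀ i j, i ≠ j → ∃ x ∈ ({a i, b i} : Set V), ∃ y ∈ ({a j, b j} : Set V),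
      G.Adj x y := by
    intro i j hij
    have h := hc i j hij
    by_contra hcon
    push Not at hcon
    apply h
    refine ⟨?_, ?_, ?_, ?_⟩ <;> rw [SimpleGraph.compl_adj]
    · exact ⟨fun h => hij (ha h), hcon _ (by simp) _ (by simp)⟩
    · exact ⟨hab i j, hcon _ (by simp) _ (by simp)⟩
    · exact ⟨(hab j i).symm, hcon _ (by simp) _ (by simp)⟩
    · exact ⟨fun h => hij (hb h), hcon _ (by simp) _ (by simp)⟩
  apply HasCliqueMinor.of_index G
    (fun x => Sum.elim (fun q : Q => ({q.1} : Set V)) (fun i => {a i, b i}) x)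
  · rintro (q | i)
    · exact ⟨⟨q.1, rfl⟩, induce_singleton_connected G q.1⟩
    · exact ⟨⟨a i, by simp⟩, G.induce_pair_connected_of_adj (hadj i)⟩
  · rintro (p | i) (q | j) hne
    · have hpq : p.1 ≠ q.1 := fun h => hne (by rw [Subtype.ext h])
      exact ⟨by simpa using hpq, p.1, rfl, q.1, rfl, hQ _ p.2 _ q.2 hpq⟩
    · refine ⟨?_, ?_⟩
      · simp only [Sum.elim_inl, Sum.elim_inr, Set.disjoint_singleton_left, Set.mem_insert_iff,
          Set.mem_singleton_iff, not_or]
        exact ⟨fun h => haQ j (h ▸ p.2), fun h => hbQ j (h ▸ p.2)⟩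
      · obtain ⟨y, hy, hadj⟩ := key j p.1 p.2
        exact ⟨p.1, rfl, y, hy, hadj⟩
    · refine ⟨?_, ?_⟩
      · simp only [Sum.elim_inl, Sum.elim_inr, Set.disjoint_singleton_right, Set.mem_insert_iff,
          Set.mem_singleton_iff, not_or]
        exact ⟨fun h => haQ i (h ▸ q.2), fun h => hbQ i (h ▸ q.2)⟩
      · obtain ⟨y, hy, hadj⟩ := key i q.1 q.2
        exact ⟨y, hy, q.1, rfl, hadj.symm⟩
    · have hij : i ≠ j := fun h => hne (by rw [h])
      refine ⟨?_, key2 i j hij⟩
      rw [Set.disjoint_left]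
      rintro x hx hx'
      simp only [Sum.elim_inr, Set.mem_insert_iff, Set.mem_singleton_iff] at hx hx'
      rcases hx with rfl | rfl <;> rcases hx' with h | h
      · exact hij (ha h)
      · exact hab i j h
      · exact hab j i h.symm
      · exact hij (hb h)

open Classical in
/-- From a Tutte-Berge type partition to a clique minor. -/
theorem minor_of_partition {V : Type*} [Fintype V] [DecidableEq V] (G H : SimpleGraph V)
    (hH : H = Gᶜ) (D : ℕ) (hdeg : ∀ w, (univ.filter (fun c => H.Adj w c)).card ≤ D)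
    (S Q W : Finset V) (hWS : Disjoint W S) (hWQ : Disjoint W Q) (hSQ : Disjoint S Q)
    (hQ : ∀ p ∈ Q, ∀ q ∈ Q, p ≠ q → G.Adj p q)
    (hone : ∀ w ∈ W, ∀ p ∈ Q, ∀ q ∈ Q, H.Adj w p → H.Adj w q → p = q)
    (hev : Even W.card) (R : ℕ) (hR : (64 * D) ^ 4 ≤ R ^ 3) (hRle : R ≤ W.card + S.card) :
    HasCliqueMinor G (Q.card + W.card / 2) := by
  obtain ⟨m, hm⟩ := hev
  have hm2 : W.card / 2 = m := by omega
  rw [hm2]
  rcases Nat.lt_or_ge (6 * W.card) R with hcase | hcase
  · -- few vertices in `W`: use `S`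
    obtain ⟨X, hXW, hXm⟩ := exists_subset_card_eq (s := W) (n := m) (by omega)
    have hXS : Disjoint X S := disjoint_of_subset_left hXW hWS
    obtain ⟨f, hf1, hf2, hf3⟩ := exists_good_injection H X S hXS
      (fun x s => ∃ q ∈ Q, H.Adj x q ∧ H.Adj s q) D R hdeg (by
        intro x hx
        by_cases hq : ∃ q ∈ Q, H.Adj x q
        · obtain ⟨q, hqQ, hxq⟩ := hq
          refine le_trans (card_le_card ?_) (hdeg q)
          intro s hs
          simp only [mem_filter, mem_univ, true_and] at hs ⊢
          obtain ⟨_, q', hq'Q, hxq', hsq'⟩ := hs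
          have : q' = q := hone x (hXW hx) q' hq'Q q hqQ hxq' hxq
          subst this
          exact hsq'.symm
        · refine le_trans (le_of_eq (card_eq_zero.2 (eq_empty_of_forall_notMem ?_)))
            (Nat.zero_le _)
          intro s hs
          simp only [mem_filter, mem_univ, true_and] at hs
          have hs' : ∃ q ∈ Q, H.Adj x q ∧ H.Adj s q := by tauto
          obtain ⟨q, hqQ, hxq, _⟩ := hs'
          exact hq ⟨q, hqQ, hxq⟩) hR (by omega) (by omega)
    subst hH
    have hcardX : Fintype.card X = m := by rw [Fintype.card_coe, hXm]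
    have := minor_builder G Q hQ (fun x : X => x.1) (fun x : X => (f x).1)
      Subtype.val_injective (fun x y h => f.injective (Subtype.ext h))
      (fun x y h => (disjoint_left.1 hXS) x.2 (h ▸ (f y).2))
      (fun x h => (disjoint_left.1 hWQ) (hXW x.2) h)
      (fun x h => (disjoint_left.1 hSQ) (f x).2 h)
      (fun x => by
        have h := hf1 x
        rw [SimpleGraph.compl_adj, not_and_or, not_not, not_not] at h
        rcases h with h | h
        · exact absurd ((f x).2) (fun h' => (disjoint_left.1 hXS) x.2 (h ▸ h'))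
        · exact h)
      (fun x q hqQ h => hf2 x ⟨q, hqQ, h⟩)
      (fun x y hxy h => hf3 x y hxy h)
    rwa [hcardX] at this
  · -- many vertices in `W`
    have hN : (16 * D) ^ 4 ≤ (Fintype.card W) ^ 3 := by
      rw [Fintype.card_coe]
      have h1 : R ^ 3 ≤ (6 * W.card) ^ 3 := Nat.pow_le_pow_left hcase 3
      have h2 : (64 * D) ^ 4 = 256 * (16 * D) ^ 4 := by ring
      have h3 : (6 * W.card) ^ 3 = 216 * W.card ^ 3 := by ring
      omega
    obtain ⟨e, he1, he2, he3⟩ := exists_good_pairing (W := W) (m := m)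
      (by rw [Fintype.card_coe]; omega) (H.comap Subtype.val)
      (fun x y => ∃ q ∈ Q, H.Adj x.1 q ∧ H.Adj y.1 q)
      (fun x y ⟨q, h1, h2, h3⟩ => ⟨q, h1, h3, h2⟩) D
      (by
        intro w
        refine le_trans ?_ (hdeg w.1)
        apply card_le_card_of_injOn (fun x => x.1)
        · intro x hx
          simpa using hx
        · intro x _ y _ h
          exact Subtype.ext h)
      (by
        intro w
        by_cases hq : ∃ q ∈ Q, H.Adj w.1 q
        · obtain ⟨q, hqQ, hxq⟩ := hq
          refine le_trans ?_ (hdeg q)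
          apply card_le_card_of_injOn (fun x => x.1)
          · intro x hx
            simp only [coe_filter, mem_univ, true_and, Set.mem_ofPred_eq] at hx ⊢
            obtain ⟨q', hq'Q, hxq', hsq'⟩ := hx
            have : q' = q := hone w.1 w.2 q' hq'Q q hqQ hxq' hxq
            subst this
            exact hsq'.symm
          · intro x _ y _ h
            exact Subtype.ext h
        · refine le_trans (le_of_eq (card_eq_zero.2 (eq_empty_of_forall_notMem ?_)))
            (Nat.zero_le _)
          intro s hs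
          simp only [mem_filter, mem_univ, true_and] at hs
          have hs' : ∃ q ∈ Q, H.Adj w.1 q ∧ H.Adj s.1 q := by tauto
          obtain ⟨q, hqQ, hxq, _⟩ := hs'
          exact hq ⟨q, hqQ, hxq⟩) hN
    subst hH
    have hcardm : Fintype.card (Fin m) = m := Fintype.card_fin m
    have hpart : ∀ i, partner e (e (i, false)) = e (i, true) := fun i => by
      rw [partner_apply]; rfl
    have hne : ∀ i j (b c : Bool), e (i, b) = e (j, c) → i = j ∧ b = c := by
      intro i j b c h
      have := e.injective h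
      exact Prod.mk.inj this
    have := minor_builder G Q hQ (fun i : Fin m => (e (i, false)).1)
      (fun i : Fin m => (e (i, true)).1)
      (fun i j h => (hne i j _ _ (Subtype.ext h)).1) (fun i j h => (hne i j _ _ (Subtype.ext h)).1)
      (fun i j h => by
        have := (hne i j _ _ (Subtype.ext h)).2
        exact absurd this (by decide))
      (fun i h => (disjoint_left.1 hWQ) (e (i, false)).2 h)
      (fun i h => (disjoint_left.1 hWQ) (e (i, true)).2 h)
      (fun i => by
        have h := he1 (e (i, false))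
        rw [hpart, SimpleGraph.comap_adj, SimpleGraph.compl_adj, not_and_or, not_not, not_not] at h
        rcases h with h | h
        · have := (hne i i _ _ (Subtype.ext h)).2
          exact absurd this (by decide)
        · exact h)
      (fun i q hqQ h => he2 (e (i, false)) ⟨q, hqQ, by rw [hpart]; exact h⟩)
      (fun i j hij h => by
        refine he3 (e (i, false)) (e (j, false)) ?_ ?_ ?_
        · intro h'
          exact hij (hne j i _ _ h').1.symm
        · rw [hpart]
          intro h'
          exact hij (hne j i _ _ h').1.symm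
        · simp only [hpart, SimpleGraph.comap_adj]
          exact h)
    rwa [hcardm] at this

end Vale.Agent.P060
end

section

namespace Vale.Agent.P060

open Finset

theorem HasCliqueMinor.le_card {V : Type*} [Fintype V] (G : SimpleGraph V) (t : ℕ)
    (h : HasCliqueMinor G t) : t ≤ Fintype.card V := by
  obtain ⟨B, h1, h2⟩ := h
  choose r hr using fun i => (h1 i).1
  have hinj : Function.Injective r := by
    intro i j hij
    by_contra hne
    have hd := (h2 i j hne).1
    rw [Set.disjoint_left] at hd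
    exact hd (hr i) (hij ▸ hr j)
  simpa using Fintype.card_le_of_injective r hinj

theorem le_hadwigerNumber {V : Type*} [Fintype V] (G : SimpleGraph V) (t : ℕ)
    (h : HasCliqueMinor G t) : t ≤ hadwigerNumber G :=
  le_csSup ⟨Fintype.card V, fun s hs => HasCliqueMinor.le_card G s hs⟩ h

theorem chromaticNumber_le_of_minor {V : Type*} [Fintype V] (G : SimpleGraph V) (t : ℕ)
    (hc : G.Colorable t) (hm : HasCliqueMinor G t) :
    G.chromaticNumber ≤ (hadwigerNumber G : ℕ∞) :=
  hc.chromaticNumber_le.trans (by exact_mod_cast le_hadwigerNumber G t hm)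

theorem card_le_cliqueNum {V : Type*} [Fintype V] (G : SimpleGraph V) (Q : Finset V)
    (hQ : ∀ p ∈ Q, ∀ q ∈ Q, p ≠ q → G.Adj p q) : Q.card ≤ G.cliqueNum := by
  have : G.IsClique (Q : Set V) := by
    intro p hp q hq hpq
    exact hQ p hp q hq hpq
  exact this.card_le_cliqueNum

open Classical in
theorem compl_filter_card {V : Type*} [Fintype V] (G : SimpleGraph V) (v : V) :
    (univ.filter (fun c => Gᶜ.Adj v c)).card = {w : V | w ≠ v ∧ ¬ G.Adj v w}.ncard := by
  rw [← Set.ncard_coe_finset]
  congr 1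
  ext w
  simp only [coe_filter, mem_univ, true_and, Set.mem_ofPred_eq, SimpleGraph.compl_adj]
  exact ⟨fun h => ⟨h.1.symm, h.2⟩, fun h => ⟨h.1.symm, h.2⟩⟩

/-- Main theorem. -/
theorem hadwiger_of_few_nonneighbours {V : Type*} [Fintype V] (G : SimpleGraph V) (D : ℕ)
    (hD : ∀ v : V, {w : V | w ≠ v ∧ ¬ G.Adj v w}.ncard ≤ D)
    (h : (64 * D) ^ 4 ≤ (Fintype.card V - G.cliqueNum) ^ 3) :
    G.chromaticNumber ≤ (hadwigerNumber G : ℕ∞) := by
  classical
  obtain ⟨S, Q, W, hWS, hWQ, hSQ, hcard, hSQc, hQ, hone, hev, hcol⟩ := exists_partition Gᶜ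
  rw [compl_compl] at hcol
  have hQ' : ∀ p ∈ Q, ∀ q ∈ Q, p ≠ q → G.Adj p q := by
    intro p hp q hq hpq
    have := hQ p hp q hq hpq
    rwa [compl_compl] at this
  have hQc := card_le_cliqueNum G Q hQ'
  have hdeg : ∀ v, (univ.filter (fun c => Gᶜ.Adj v c)).card ≤ D := by
    intro v
    have h1 := compl_filter_card G v
    have h2 := hD v
    rw [← h1] at h2
    convert h2
  have hdeg' : ∀ H : SimpleGraph V, H = Gᶜ →
      ∀ v, (univ.filter (fun c => H.Adj v c)).card ≤ D := by
    rintro H rfl v
    convert hdeg v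
  exact chromaticNumber_le_of_minor G _ hcol (minor_of_partition G Gᶜ rfl D
    (by intro w; convert hdeg w) S Q W hWS hWQ hSQ hQ' hone hev (Fintype.card V - G.cliqueNum) h
    (by omega))

end Vale.Agent.P060
end

section

namespace Vale.Agent.P060

open Finset

/-- A conflict-free pairing of `W` together with the clique `Q` gives a clique minor. -/
theorem minor_of_pairing {V : Type*} [Fintype V] [DecidableEq V] (G : SimpleGraph V)
    (Q W : Finset V) (hWQ : Disjoint W Q)
    (hQ : ∀ p ∈ Q, ∀ q ∈ Q, p ≠ q → G.Adj p q) (m : ℕ) (e : Fin m × Bool ≃ W)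
    (he1 : ∀ x, ¬ Gᶜ.Adj x.1 (partner e x).1)
    (he2 : ∀ x, ¬ ∃ q ∈ Q, Gᶜ.Adj x.1 q ∧ Gᶜ.Adj (partner e x).1 q)
    (he3 : ∀ x y, y ≠ x → y ≠ partner e x → ¬ (Gᶜ.Adj x.1 y.1 ∧ Gᶜ.Adj x.1 (partner e y).1 ∧
        Gᶜ.Adj (partner e x).1 y.1 ∧ Gᶜ.Adj (partner e x).1 (partner e y).1)) :
    HasCliqueMinor G (Q.card + m) := by
  have hcardm : Fintype.card (Fin m) = m := Fintype.card_fin m
  have hpart : ∀ i, partner e (e (i, false)) = e (i, true) := fun i => by
    rw [partner_apply]; rfl
  have hne : ∀ i j (b c : Bool), e (i, b) = e (j, c) → i = j ∧ b = c := by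
    intro i j b c h
    have := e.injective h
    exact Prod.mk.inj this
  have := minor_builder G Q hQ (fun i : Fin m => (e (i, false)).1)
    (fun i : Fin m => (e (i, true)).1)
    (fun i j h => (hne i j _ _ (Subtype.ext h)).1) (fun i j h => (hne i j _ _ (Subtype.ext h)).1)
    (fun i j h => by
      have := (hne i j _ _ (Subtype.ext h)).2
      exact absurd this (by decide))
    (fun i h => (disjoint_left.1 hWQ) (e (i, false)).2 h)
    (fun i h => (disjoint_left.1 hWQ) (e (i, true)).2 h)
    (fun i => by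
      have h := he1 (e (i, false))
      rw [hpart, SimpleGraph.compl_adj, not_and_or, not_not, not_not] at h
      rcases h with h | h
      · have := (hne i i _ _ (Subtype.ext h)).2
        exact absurd this (by decide)
      · exact h)
    (fun i q hqQ h => he2 (e (i, false)) ⟨q, hqQ, by rw [hpart]; exact h⟩)
    (fun i j hij h => by
      refine he3 (e (i, false)) (e (j, false)) ?_ ?_ ?_
      · intro h'
        exact hij (hne j i _ _ h').1.symm
      · rw [hpart]
        intro h'
        exact hij (hne j i _ _ h').1.symm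
      · simp only [hpart]
        exact h)
  rwa [hcardm] at this

open Classical in
theorem nonnbr_le_cliqueNum {V : Type*} [Fintype V] (G : SimpleGraph V) (hα : G.indepNum ≤ 2)
    (v : V) : (univ.filter (fun c => Gᶜ.Adj v c)).card ≤ G.cliqueNum := by
  apply card_le_cliqueNum
  intro p hp q hq hpq
  simp only [mem_filter, mem_univ, true_and, SimpleGraph.compl_adj] at hp hq
  by_contra hcon
  have hind : G.IsIndepSet (({v, p, q} : Finset V) : Set V) := by
    intro x hx y hy hxy
    simp only [coe_insert, coe_singleton, Set.mem_insert_iff, Set.mem_singleton_iff] at hx hy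
    rcases hx with rfl | rfl | rfl <;> rcases hy with rfl | rfl | rfl
    · exact absurd rfl hxy
    · exact hp.2
    · exact hq.2
    · exact fun h => hp.2 h.symm
    · exact absurd rfl hxy
    · exact hcon
    · exact fun h => hq.2 h.symm
    · exact fun h => hcon h.symm
    · exact absurd rfl hxy
  have h1 := hind.card_le_indepNum
  rw [card_eq_three.2 ⟨v, p, q, hp.1, hq.1, hpq, rfl⟩] at h1
  omega

open Classical in
theorem card_le_of_alpha {V : Type*} [Fintype V] (G : SimpleGraph V) (hα : G.indepNum ≤ 2) :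
    Fintype.card V ≤ G.cliqueNum * (G.cliqueNum + 1) := by
  obtain ⟨K, hK⟩ := G.exists_isNClique_cliqueNum
  have hcov : (univ : Finset V) ⊆ K.biUnion (fun v => insert v (univ.filter (fun c => Gᶜ.Adj v c))) := by
    intro u _
    rw [mem_biUnion]
    by_contra hcon
    push Not at hcon
    have huK : u ∉ K := fun h => hcon u h (mem_insert_self _ _)
    have hadj : ∀ v ∈ K, G.Adj v u := by
      intro v hv
      have h1 := hcon v hv
      rw [mem_insert, not_or, mem_filter, SimpleGraph.compl_adj] at h1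
      by_contra h2
      exact h1.2 ⟨mem_univ _, fun h => h1.1 h.symm, h2⟩
    have hcl := hK.insert (a := u) (fun b hb => (hadj b hb).symm)
    have h3 := hcl.isClique.card_le_cliqueNum
    rw [hcl.card_eq] at h3
    omega
  calc Fintype.card V = (univ : Finset V).card := card_univ.symm
    _ ≤ _ := card_le_card hcov
    _ ≤ ∑ v ∈ K, (insert v (univ.filter (fun c => Gᶜ.Adj v c))).card := card_biUnion_le
    _ ≤ ∑ _v ∈ K, (G.cliqueNum + 1) := by
        apply sum_le_sum
        intro v _
        exact (card_insert_le _ _).trans (Nat.succ_le_succ (nonnbr_le_cliqueNum G hα v))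
    _ = G.cliqueNum * (G.cliqueNum + 1) := by rw [sum_const, smul_eq_mul, hK.card_eq]

open Classical in
/-- Independence number two. -/
theorem hadwiger_of_indepNum_two {V : Type*} [Fintype V] (G : SimpleGraph V)
    (hα : G.indepNum ≤ 2) (h : 4096 * G.cliqueNum ^ 4 ≤ Fintype.card V ^ 3) :
    G.chromaticNumber ≤ (hadwigerNumber G : ℕ∞) := by
  obtain ⟨S, Q, W, hWS, hWQ, hSQ, hcard, hSQc, hQ, hone, hev, hcol⟩ := exists_partition Gᶜ
  rw [compl_compl] at hcol
  have hQ' : ∀ p ∈ Q, ∀ q ∈ Q, p ≠ q → G.Adj p q := by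
    intro p hp q hq hpq
    have := hQ p hp q hq hpq
    rwa [compl_compl] at this
  have hQc := card_le_cliqueNum G Q hQ'
  obtain ⟨m, hm⟩ := hev
  rcases Nat.eq_zero_or_pos G.cliqueNum with h0 | h0
  · have h1 := card_le_of_alpha G hα
    rw [h0] at h1
    have h2 : Fintype.card V = 0 := by omega
    have h3 : IsEmpty V := Fintype.card_eq_zero_iff.1 h2
    have : G.chromaticNumber = 0 := SimpleGraph.chromaticNumber_eq_zero_of_isEmpty
    rw [this]
    exact bot_le
  · obtain ⟨hm2, K, hK⟩ := numeric_alpha m G.cliqueNum (Fintype.card V) h0 h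
      (card_le_of_alpha G hα) (by omega)
    have hdeg := nonnbr_le_cliqueNum G hα
    obtain ⟨e, he1, he2, he3⟩ := exists_pairing_canon (W := W) (m := m) hm2
      (by rw [Fintype.card_coe]; omega) (Gᶜ.comap Subtype.val)
      (fun x y => ∃ q ∈ Q, Gᶜ.Adj x.1 q ∧ Gᶜ.Adj y.1 q)
      (fun x y ⟨q, h1, h2, h3⟩ => ⟨q, h1, h3, h2⟩) G.cliqueNum G.cliqueNum K
      (by
        intro w
        refine le_trans ?_ (hdeg w.1)
        apply card_le_card_of_injOn (fun x => x.1)
        · intro x hx
          simpa using hx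
        · intro x _ y _ h
          exact Subtype.ext h)
      (by
        intro w
        by_cases hq : ∃ q ∈ Q, Gᶜ.Adj w.1 q
        · obtain ⟨q, hqQ, hxq⟩ := hq
          refine le_trans ?_ (hdeg q)
          apply card_le_card_of_injOn (fun x => x.1)
          · intro x hx
            simp only [coe_filter, mem_univ, true_and, Set.mem_ofPred_eq] at hx ⊢
            obtain ⟨q', hq'Q, hxq', hsq'⟩ := hx
            have : q' = q := hone w.1 w.2 q' hq'Q q hqQ hxq' hxq
            subst this
            exact hsq'.symm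
          · intro x _ y _ h
            exact Subtype.ext h
        · refine le_trans (le_of_eq (card_eq_zero.2 (eq_empty_of_forall_notMem ?_)))
            (Nat.zero_le _)
          intro s hs
          simp only [mem_filter, mem_univ, true_and] at hs
          have hs' : ∃ q ∈ Q, Gᶜ.Adj w.1 q ∧ Gᶜ.Adj s.1 q := by tauto
          obtain ⟨q, hqQ, hxq, _⟩ := hs'
          exact hq ⟨q, hqQ, hxq⟩) hK
    have hm' : W.card / 2 = m := by omega
    rw [hm'] at hcol
    exact chromaticNumber_le_of_minor G _ hcol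
      (minor_of_pairing G Q W hWQ hQ' m e he1 he2 he3)

end Vale.Agent.P060
end

section

namespace Vale.Agent.P060

open Finset

/-- No dominating vertex. -/
theorem hadwiger_of_no_dominating {V : Type*} [Fintype V] (G : SimpleGraph V) (D : ℕ)
    (hdom : ∀ v : V, ∃ w : V, w ≠ v ∧ ¬ G.Adj v w)
    (hD : ∀ v : V, {w : V | w ≠ v ∧ ¬ G.Adj v w}.ncard ≤ D)
    (h : 2 ^ 27 * D ^ 7 ≤ Fintype.card V ^ 3) :
    G.chromaticNumber ≤ (hadwigerNumber G : ℕ∞) := by
  classical
  rcases isEmpty_or_nonempty V with hV | ⟨⟨v0⟩⟩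
  · have : G.chromaticNumber = 0 := SimpleGraph.chromaticNumber_eq_zero_of_isEmpty
    rw [this]
    exact bot_le
  · have hD1 : 1 ≤ D := by
      obtain ⟨w, hw⟩ := hdom v0
      have h1 : 0 < {w : V | w ≠ v0 ∧ ¬ G.Adj v0 w}.ncard :=
        (Set.ncard_pos (Set.toFinite _)).2 ⟨w, hw⟩
      exact lt_of_lt_of_le h1 (hD v0)
    obtain ⟨K, hK⟩ := G.exists_isNClique_cliqueNum
    have hsub : K ⊆ (univ \ K).biUnion (fun w => univ.filter (fun v => Gᶜ.Adj w v)) := by
      intro v hv
      obtain ⟨w, hwv, hadj⟩ := hdom v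
      have hwK : w ∉ K := fun hw => hadj (hK.isClique hv hw hwv.symm)
      refine mem_biUnion.2 ⟨w, mem_sdiff.2 ⟨mem_univ _, hwK⟩, ?_⟩
      rw [mem_filter, SimpleGraph.compl_adj]
      exact ⟨mem_univ _, hwv, fun h => hadj h.symm⟩
    have hcard : G.cliqueNum ≤ (Fintype.card V - G.cliqueNum) * D := by
      have hsd : (univ \ K).card = Fintype.card V - G.cliqueNum := by
        rw [card_sdiff_of_subset (subset_univ _), card_univ, hK.card_eq]
      calc G.cliqueNum = K.card := hK.card_eq.symm
        _ ≤ _ := card_le_card hsub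
        _ ≤ ∑ w ∈ univ \ K, (univ.filter (fun v => Gᶜ.Adj w v)).card := card_biUnion_le
        _ ≤ ∑ _w ∈ univ \ K, D := by
            apply sum_le_sum
            intro w _
            have h1 := hD w
            rw [← compl_filter_card G w] at h1
            convert h1
        _ = (Fintype.card V - G.cliqueNum) * D := by rw [sum_const, smul_eq_mul, hsd]
    apply hadwiger_of_few_nonneighbours G D hD
    set R := Fintype.card V - G.cliqueNum with hR
    have hn : Fintype.card V ≤ 2 * D * R := by
      have h1 : Fintype.card V ≤ R + G.cliqueNum := by omega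
      have h2 : R ≤ R * D := Nat.le_mul_of_pos_right R hD1
      calc Fintype.card V ≤ R + G.cliqueNum := h1
        _ ≤ R * D + R * D := Nat.add_le_add h2 hcard
        _ = 2 * D * R := by ring
    have h3 : 2 ^ 27 * D ^ 7 ≤ (2 * D * R) ^ 3 := h.trans (Nat.pow_le_pow_left hn 3)
    have h4 : (8 * D ^ 3) * (64 * D) ^ 4 ≤ (8 * D ^ 3) * R ^ 3 := by
      calc (8 * D ^ 3) * (64 * D) ^ 4 = 2 ^ 27 * D ^ 7 := by ring
        _ ≤ _ := h3
        _ = (8 * D ^ 3) * R ^ 3 := by ring
    exact Nat.le_of_mul_le_mul_left h4 (by positivity)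

theorem colorable_succ {V : Type*} (G : SimpleGraph V) (v : V) (k : ℕ)
    (h : (G.induce {x | x ≠ v}).Colorable k) : G.Colorable (k + 1) := by
  classical
  obtain ⟨C⟩ := h
  have C' : G.Coloring (Option (Fin k)) := SimpleGraph.Coloring.mk
    (fun x => if hx : x ≠ v then some (C ⟨x, hx⟩) else none) (by
      intro a b hab heq
      by_cases ha : a ≠ v
      · by_cases hb : b ≠ v
        · rw [dif_pos ha, dif_pos hb, Option.some.injEq] at heq
          exact C.valid (v := ⟨a, ha⟩) (w := ⟨b, hb⟩) hab heq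
        · rw [dif_pos ha, dif_neg hb] at heq
          exact absurd heq (by simp)
      · by_cases hb : b ≠ v
        · rw [dif_neg ha, dif_pos hb] at heq
          exact absurd heq (by simp)
        · rw [not_not] at ha hb
          exact hab.ne (ha.trans hb.symm))
  have := C'.colorable
  simpa using this

theorem minor_succ {V : Type*} (G : SimpleGraph V) (v : V)
    (hv : ∀ w, w ≠ v → G.Adj v w) (t : ℕ)
    (h : HasCliqueMinor (G.induce {x | x ≠ v}) t) : HasCliqueMinor G (t + 1) := by
  obtain ⟨B, h1, h2⟩ := h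
  have hcard : Fintype.card (Option (Fin t)) = t + 1 := by simp
  rw [← hcard]
  apply HasCliqueMinor.of_index G
    (fun o : Option (Fin t) => o.elim {v} (fun i => Subtype.val '' (B i)))
  · rintro (_ | i)
    · exact ⟨⟨v, rfl⟩, induce_singleton_connected G v⟩
    · refine ⟨(h1 i).1.image _, ?_⟩
      let f : (G.induce {x | x ≠ v}).induce (B i) →g G.induce (Subtype.val '' (B i)) :=
        ⟨fun x => ⟨x.1.1, ⟨x.1, x.2, rfl⟩⟩, fun hab => hab⟩
      refine (h1 i).2.map f ?_
      rintro ⟨_, ⟨x, hx, rfl⟩⟩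
      exact ⟨⟨x, hx⟩, rfl⟩
  · rintro (_ | i) (_ | j) hij
    · exact absurd rfl hij
    · obtain ⟨x, hx⟩ := (h1 j).1
      refine ⟨?_, v, rfl, x.1, ⟨x, hx, rfl⟩, hv x.1 x.2⟩
      rw [Set.disjoint_left]
      intro z hz hz'
      obtain ⟨y, _, hy⟩ := hz'
      exact y.2 (hy.trans hz)
    · obtain ⟨x, hx⟩ := (h1 i).1
      refine ⟨?_, x.1, ⟨x, hx, rfl⟩, v, rfl, (hv x.1 x.2).symm⟩
      rw [Set.disjoint_left]
      rintro _ ⟨y, _, hy⟩ hy'
      exact y.2 (hy.trans hy')
    · have hij' : i ≠ j := fun h => hij (by rw [h])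
      obtain ⟨hd, x, hx, y, hy, hadj⟩ := h2 i j hij'
      refine ⟨?_, x.1, ⟨x, hx, rfl⟩, y.1, ⟨y, hy, rfl⟩, hadj⟩
      exact (Set.disjoint_image_iff Subtype.val_injective).2 hd

theorem hasCliqueMinor_hadwigerNumber {V : Type*} [Fintype V] (G : SimpleGraph V) :
    HasCliqueMinor G (hadwigerNumber G) := by
  have hne : {t : ℕ | HasCliqueMinor G t}.Nonempty :=
    ⟨0, fun i => i.elim0, fun i => i.elim0, fun i => i.elim0⟩
  exact Nat.sSup_mem hne ⟨Fintype.card V, fun s hs => HasCliqueMinor.le_card G s hs⟩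

/-- Removing a dominating vertex. -/
theorem hadwiger_of_dominating {V : Type*} [Fintype V] (G : SimpleGraph V) (v : V)
    (hv : ∀ w, w ≠ v → G.Adj v w)
    (h : (G.induce {x | x ≠ v}).chromaticNumber ≤ (hadwigerNumber (G.induce {x | x ≠ v}) : ℕ∞)) :
    G.chromaticNumber ≤ (hadwigerNumber G : ℕ∞) := by
  classical
  set G' := G.induce {x | x ≠ v} with hG'
  have hcol : G'.Colorable (hadwigerNumber G') :=
    SimpleGraph.chromaticNumber_le_iff_colorable.1 h
  have hmin := hasCliqueMinor_hadwigerNumber G'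
  exact chromaticNumber_le_of_minor G _ (colorable_succ G v _ hcol) (minor_succ G v hv _ hmin)

/-- Finite reduction. -/
theorem finite_reduction (D : ℕ)
    (hsmall : ∀ (V : Type) [Fintype V] (G : SimpleGraph V),
      (∀ v : V, {w : V | w ≠ v ∧ ¬ G.Adj v w}.ncard ≤ D) →
      Fintype.card V ^ 3 < 2 ^ 27 * D ^ 7 → G.chromaticNumber ≤ (hadwigerNumber G : ℕ∞)) :
    ∀ (V : Type) [Fintype V] (G : SimpleGraph V),
      (∀ v : V, {w : V | w ≠ v ∧ ¬ G.Adj v w}.ncard ≤ D) →
      G.chromaticNumber ≤ (hadwigerNumber G : ℕ∞) := by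
  have key : ∀ n : ℕ, ∀ (V : Type) [Fintype V] (G : SimpleGraph V), Fintype.card V = n →
      (∀ v : V, {w : V | w ≠ v ∧ ¬ G.Adj v w}.ncard ≤ D) →
      G.chromaticNumber ≤ (hadwigerNumber G : ℕ∞) := by
    intro n
    induction n using Nat.strong_induction_on with
    | _ n ih =>
      intro V _ G hn hD
      classical
      by_cases hdom : ∀ v : V, ∃ w : V, w ≠ v ∧ ¬ G.Adj v w
      · rcases Nat.lt_or_ge (Fintype.card V ^ 3) (2 ^ 27 * D ^ 7) with hlt | hge
        · exact hsmall V G hD hlt
        · exact hadwiger_of_no_dominating G D hdom hD hge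
      · push Not at hdom
        obtain ⟨v, hv⟩ := hdom
        apply hadwiger_of_dominating G v hv
        refine ih (Fintype.card {x : V | x ≠ v}) ?_ {x : V | x ≠ v} (G.induce {x | x ≠ v}) rfl ?_
        · rw [← hn]
          exact Fintype.card_subtype_lt (x := v) (by simp)
        · intro u
          refine le_trans ?_ (hD u.1)
          rw [← Set.ncard_image_of_injective _ Subtype.val_injective]
          apply Set.ncard_le_ncard _ (Set.toFinite _)
          rintro _ ⟨w, ⟨hw1, hw2⟩, rfl⟩
          exact ⟨fun h => hw1 (Subtype.ext h), hw2⟩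
  intro V _ G hD
  exact key _ V G rfl hD

end Vale.Agent.P060
end
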